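import Vale.Agent.P160R.Family.Count
import Vale.Agent.P160R.Defs

/-!
# The family exponent is `o(m²)`
-/

namespace Vale.Agent.P160R.Fam

open Finset Matrix Filter

/-- The exponent of the test height. -/
def eOf (m : ℕ) : ℕ := Nat.log 2 m / 16

/-- The budget rounded up. -/
noncomputable def aOf (m : ℕ) : ℕ := ⌈lBudget m⌉₊ + 1

lemma pow_eOf_le {m : ℕ} (hm : m ≠ 0) : (2 ^ eOf m) ^ 16 ≤ m := by
  rw [← pow_mul]
  exact le_trans (Nat.pow_le_pow_right two_pos (Nat.div_mul_le_self _ 16)) (Nat.pow_log_le_self 2 hm)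

lemma lt_pow_eOf (m : ℕ) : m < 2 ^ (16 * eOf m + 16) := by
  refine lt_of_lt_of_le (Nat.lt_pow_succ_log_self one_lt_two m) (Nat.pow_le_pow_right two_pos ?_)
  have := Nat.lt_mul_div_succ (Nat.log 2 m) (show 0 < 16 by norm_num)
  rw [eOf]
  omega

lemma le_eOf (N : ℕ) {m : ℕ} (hm : 2 ^ (16 * N) ≤ m) : N ≤ eOf m := by
  rw [eOf, Nat.le_div_iff_mul_le (by norm_num), mul_comm]
  exact Nat.le_log_of_pow_le one_lt_two hm

/-- The squared budget is negligible against the exponent. -/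
lemma eventually_aOf (κ : ℝ) (hκ : 0 < κ) :
    ∀ᶠ m : ℕ in atTop, (aOf m : ℝ) ^ 2 ≤ κ * eOf m := by
  have h4 := (Real.isLittleO_pow_log_id_atTop (n := 4)).comp_tendsto
    (Real.tendsto_log_atTop.comp tendsto_natCast_atTop_atTop)
  have hb := Asymptotics.IsLittleO.bound h4 (show (0 : ℝ) < κ / 128 by positivity)
  have hbig := (Real.tendsto_log_atTop.comp tendsto_natCast_atTop_atTop).eventually_ge_atTop
    (max 64 (1024 / κ))
  filter_upwards [hb, hbig, eventually_gt_atTop 0] with m h1 h2 hm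
  simp only [Function.comp_apply, id_eq, Real.norm_eq_abs] at h1 h2
  set x := Real.log (m : ℝ) with hx
  have hx64 : 64 ≤ x := (le_max_left _ _).trans h2
  have hxk : 1024 / κ ≤ x := (le_max_right _ _).trans h2
  rw [abs_of_nonneg (by positivity), abs_of_nonneg (by linarith)] at h1
  have hA : (aOf m : ℝ) ≤ lBudget m + 2 := by
    have := Nat.ceil_lt_add_one (show 0 ≤ lBudget m from sq_nonneg _)
    simp only [aOf, Nat.cast_add, Nat.cast_one]
    linarith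
  have he : x / 16 - 2 ≤ eOf m := by
    have h := Real.log_le_log (Nat.cast_pos.2 hm)
      ((Nat.cast_le (α := ℝ)).2 (lt_pow_eOf m).le)
    rw [← hx] at h
    push_cast [Real.log_pow] at h
    have h0 : (0 : ℝ) ≤ eOf m := Nat.cast_nonneg _
    nlinarith [Real.log_two_lt_d9]
  have hsq : (aOf m : ℝ) ^ 2 ≤ 2 * Real.log x ^ 4 + 8 := by
    refine le_trans (pow_le_pow_left₀ (Nat.cast_nonneg _) hA 2) ?_
    rw [lBudget, ← hx]
    nlinarith [sq_nonneg (Real.log x ^ 2 - 2)]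
  rw [div_le_iff₀ hκ] at hxk
  nlinarith [mul_le_mul_of_nonneg_left he hκ.le]

/-- Polynomials in `e` are below any positive multiple of `2 ^ e`. -/
lemma eventually_poly (p : ℕ) (κ : ℝ) (hκ : 0 < κ) :
    ∀ᶠ e : ℕ in atTop, (e : ℝ) ^ p ≤ κ * 2 ^ e := by
  filter_upwards [(tendsto_pow_const_div_const_pow_of_one_lt p (one_lt_two (α := ℝ))).eventually_le_const
    hκ] with e he
  rwa [div_le_iff₀ (by positivity)] at he

/-- The parameters used at size `m`. -/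
noncomputable def pOf (η : ℝ) (m : ℕ) : Params :=
  ⟨aOf m, 2 ^ ⌈(aOf m : ℝ) / η⌉₊, eOf m⟩

/-- The elementary conditions on the parameters. -/
structure Nice (P : Params) (m : ℕ) : Prop where
  e12 : 12 ≤ P.e
  A1 : 1 ≤ P.A
  A10 : 10 * P.A ≤ P.e
  D1 : 1 ≤ P.D
  D2 : P.D ^ 2 ≤ P.u
  low : P.u ^ 16 ≤ m
  high : m < 2 ^ (16 * P.e + 16)

variable {P : Params} {m : ℕ}

lemma Nice.e_le_u (_h : Nice P m) : P.e + 1 ≤ P.u := Nat.lt_two_pow_self

lemma Nice.u_pos (_h : Nice P m) : 1 ≤ P.u := Nat.one_le_two_pow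

lemma Nice.u_le (h : Nice P m) {j : ℕ} (hj : j ≤ 16) : P.u ^ j ≤ m :=
  (Nat.pow_le_pow_right h.u_pos hj).trans h.low

lemma Nice.e_le_m (h : Nice P m) : P.e + 1 ≤ m :=
  h.e_le_u.trans (by simpa using h.u_le (j := 1) (by norm_num))

lemma Nice.k_le (h : Nice P m) : P.k0 m + P.k1 m ≤ m := by
  have he : 0 < P.e := by linarith [h.e12]
  have hA : P.A * m / P.e ≤ m / 10 := by
    rw [Nat.le_div_iff_mul_le (by norm_num)]
    refine Nat.le_of_mul_le_mul_left ?_ h.A1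
    calc P.A * (P.A * m / P.e * 10) = P.A * m / P.e * (10 * P.A) := by ring
      _ ≤ P.A * m / P.e * P.e := Nat.mul_le_mul_left _ h.A10
      _ ≤ P.A * m := Nat.div_mul_le_self _ _
  have hA4 : 4 * P.A * m / P.e ≤ m / 2 := by
    rw [Nat.le_div_iff_mul_le two_pos]
    refine Nat.le_of_mul_le_mul_left ?_ (Nat.mul_pos (show 0 < 4 by norm_num) h.A1)
    calc 4 * P.A * (4 * P.A * m / P.e * 2) = 4 * P.A * m / P.e * (8 * P.A) := by ring
      _ ≤ 4 * P.A * m / P.e * P.e := Nat.mul_le_mul_left _ (by linarith [h.A10])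
      _ ≤ 4 * P.A * m := Nat.div_mul_le_self _ _
  have := h.e_le_m
  have := h.e12
  simp only [Params.k0, Params.k1]
  omega

lemma Nice.m_le (h : Nice P m) : m ≤ P.e * P.k0 m := by
  have := Nat.lt_mul_div_succ (4 * P.A * m) (show 0 < P.e by linarith [h.e12])
  have hm : m ≤ 4 * P.A * m := Nat.le_mul_of_pos_left _ (by linarith [h.A1])
  simp only [Params.k0]
  omega

lemma Nice.T_le (h : Nice P m) : P.T m ≤ 4 * (m * P.u ^ 8) := by
  have hk0 : P.k0 m ≤ m := le_trans (Nat.le_add_right _ _) h.k_le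
  have hk1 : P.k1 m ≤ m := le_trans (Nat.le_add_left _ _) h.k_le
  have h1 : ((P.e + 1) * P.u) ^ 2 ≤ P.u ^ 8 :=
    calc ((P.e + 1) * P.u) ^ 2 ≤ (P.u * P.u) ^ 2 := by gcongr; exact h.e_le_u
      _ = P.u ^ 4 := by ring
      _ ≤ P.u ^ 8 := Nat.pow_le_pow_right h.u_pos (by norm_num)
  have h2 : 2 * m ≤ 2 * (m * P.u ^ 8) :=
    Nat.mul_le_mul_left _ (Nat.le_mul_of_pos_right _ (pow_pos (show 0 < P.u from h.u_pos) 8))
  have h3 : P.s ^ 2 = P.u ^ 8 := by rw [Params.s]; ring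
  simp only [Params.T, h3]
  have := Nat.mul_le_mul hk0 (le_refl (P.u ^ 8))
  have := Nat.mul_le_mul hk1 h1
  omega

/-- The logarithmic width of all finite ranges. -/
def lamOf (P : Params) : ℕ := 24 * P.e + 24

lemma Nice.sizes (h : Nice P m) :
    2 * (P.k0 m + P.k1 m) + 1 ≤ 2 ^ lamOf P ∧ P.n ≤ 2 ^ lamOf P ∧ 2 * m + 1 ≤ 2 ^ lamOf P ∧
      m * (P.u + 1) ≤ 2 ^ lamOf P ∧ P.T m + 1 ≤ 2 ^ lamOf P := by
  have hm := h.high
  have h2 : 2 ^ (16 * P.e + 16) * 2 ^ (8 * P.e + 8) = 2 ^ lamOf P := by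
    rw [← pow_add, lamOf]; congr 1; ring
  have hu : P.u ^ 8 * 256 = 2 ^ (8 * P.e + 8) := by
    rw [Params.u, ← pow_mul, pow_add, mul_comm P.e 8]; norm_num
  have hu1 : P.u ≤ P.u ^ 8 := Nat.le_self_pow (by norm_num) _
  have hu2 : P.n ≤ P.u ^ 8 := Nat.pow_le_pow_right h.u_pos (by norm_num)
  have hk := h.k_le
  have hT := h.T_le
  have hp := pow_pos (show 0 < P.u from h.u_pos) 8
  rw [← h2, ← hu]
  set M := 2 ^ (16 * P.e + 16)
  set U := P.u ^ 8
  refine ⟨?_, ?_, ?_, ?_, ?_⟩ <;> nlinarith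

/-- The exponent is small. -/
lemma Nice.phi_le (h : Nice P m) (Λ : ℕ) :
    (P.Φ m (lamOf P) Λ : ℝ) ≤ 12 * (P.A : ℝ) ^ 2 * (m : ℝ) ^ 2 / P.e + 2 * m * Λ +
      200 * (P.A : ℝ) * lamOf P * (P.e + 1) * ((m : ℝ) ^ 2 / (P.u : ℝ) ^ 4) := by
  have hk0 : P.k0 m ≤ m := le_trans (Nat.le_add_right _ _) h.k_le
  have hk1 : P.k1 m ≤ m := le_trans (Nat.le_add_left _ _) h.k_le
  have hu := h.u_pos
  set lam := lamOf P with hlam
  set X := m * P.u ^ 12 * (lam * ((P.e + 1) * P.A)) with hX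
  have hA : 1 ≤ P.A := h.A1
  have hbase : ∀ {j : ℕ}, j ≤ 12 → lam * (P.u ^ j * m) ≤ X := by
    intro j hj
    calc lam * (P.u ^ j * m) ≤ lam * (P.u ^ 12 * m) * ((P.e + 1) * P.A) :=
          le_trans (Nat.mul_le_mul_left _ (Nat.mul_le_mul_right _ (Nat.pow_le_pow_right hu hj)))
            (Nat.le_mul_of_pos_right _ (Nat.mul_pos (Nat.succ_pos _) hA))
      _ = X := by rw [hX]; ring
  have t1 : lam * (P.s * P.k0 m) ≤ X :=
    le_trans (Nat.mul_le_mul_left _ (Nat.mul_le_mul_left _ hk0)) (hbase (j := 4) (by norm_num))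
  have t2 : lam * ((P.e + 1) * P.k1 m) ≤ X := by
    refine le_trans (Nat.mul_le_mul_left _ (Nat.mul_le_mul (h.e_le_u) hk1)) ?_
    simpa using hbase (j := 1) (by norm_num)
  have t3 : lam * m ≤ X := by simpa using hbase (j := 0) (by norm_num)
  have t4 : lam ≤ X := le_trans (Nat.le_mul_of_pos_right _ (by linarith [h.e_le_m])) t3
  have hlam1 : 1 ≤ lam := by rw [hlam, lamOf]; omega
  have t5 : 40 * P.n * (P.s ^ 2 + P.e) * (P.A * m) ≤ 80 * X := by
    have hse : P.s ^ 2 + P.e ≤ 2 * P.u ^ 8 := by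
      have : P.e ≤ P.u ^ 8 := le_trans (le_trans (Nat.le_succ _) h.e_le_u)
        (Nat.le_self_pow (by norm_num) _)
      have e : P.s ^ 2 = P.u ^ 8 := by rw [Params.s]; ring
      omega
    calc 40 * P.n * (P.s ^ 2 + P.e) * (P.A * m) ≤ 40 * P.n * (2 * P.u ^ 8) * (P.A * m) := by gcongr
      _ = 80 * (m * P.u ^ 10 * (1 * (1 * P.A))) := by rw [Params.n]; ring
      _ ≤ 80 * X := by
        rw [hX]
        refine Nat.mul_le_mul_left _ ?_
        gcongr <;> omega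
  have t6 : 16 * P.n ^ 2 * P.T m * lam ≤ 64 * X := by
    calc 16 * P.n ^ 2 * P.T m * lam ≤ 16 * P.n ^ 2 * (4 * (m * P.u ^ 8)) * lam := by
          gcongr; exact h.T_le
      _ = 64 * (lam * (P.u ^ 12 * m)) := by rw [Params.n]; ring
      _ ≤ 64 * X := Nat.mul_le_mul_left _ (hbase (by norm_num))
  have t7 : 4 * P.u ^ 4 * lam * m ≤ 4 * X := by
    calc 4 * P.u ^ 4 * lam * m = 4 * (lam * (P.u ^ 4 * m)) := by ring
      _ ≤ _ := Nat.mul_le_mul_left _ (hbase (by norm_num))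
  have hΦ : P.Φ m lam Λ ≤ 200 * X + P.A * m * (2 * (P.k0 m + P.k1 m)) + 2 * m * Λ := by
    simp only [Params.Φ]
    have : m * (lam + 2 * Λ) = lam * m + 2 * m * Λ := by ring
    omega
  have hk : (P.k0 m + P.k1 m : ℕ) ≤ (6 : ℝ) * P.A * m / P.e := by
    have he : (0 : ℝ) < P.e := Nat.cast_pos.2 (by linarith [h.e12])
    rw [le_div_iff₀ he]
    have h1 := Nat.div_mul_le_self (4 * P.A * m) P.e
    have h2 := Nat.div_mul_le_self (P.A * m) P.e
    have h3 : P.e ≤ P.A * m := le_trans (le_trans (Nat.le_succ _) h.e_le_m)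
      (Nat.le_mul_of_pos_left _ hA)
    have : (P.k0 m + P.k1 m) * P.e ≤ 6 * P.A * m := by
      simp only [Params.k0, Params.k1]
      nlinarith
    exact_mod_cast this
  have hXr : (X : ℝ) ≤ (P.A : ℝ) * lam * (P.e + 1) * ((m : ℝ) ^ 2 / (P.u : ℝ) ^ 4) := by
    have hup : (0 : ℝ) < (P.u : ℝ) ^ 4 := by
      have : (1 : ℝ) ≤ P.u := Nat.one_le_cast.2 hu
      positivity
    have h16 : (P.u : ℝ) ^ 16 ≤ m := by exact_mod_cast h.low
    rw [hX]
    push_cast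
    rw [mul_div_assoc', le_div_iff₀ hup]
    nlinarith [mul_le_mul_of_nonneg_left h16
      (show (0 : ℝ) ≤ (P.A : ℝ) * lam * (P.e + 1) * m by positivity)]
  have hΦr := (Nat.cast_le (α := ℝ)).2 hΦ
  push_cast at hΦr hk
  refine hΦr.trans ?_
  have := mul_le_mul_of_nonneg_left hk (show (0 : ℝ) ≤ (P.A : ℝ) * m * 2 by positivity)
  have e : (P.A : ℝ) * m * 2 * (6 * P.A * m / P.e) = 12 * (P.A : ℝ) ^ 2 * m ^ 2 / P.e := by ring
  nlinarith

/-- The polynomial term. -/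
lemma Nice.poly_term (hN : Nice P m) {η : ℝ} (hη : 0 < η)
    (hp3 : (P.e : ℝ) ^ 3 ≤ η / 1000000 * 2 ^ P.e) :
    200 * (P.A : ℝ) * lamOf P * (P.e + 1) * ((m : ℝ) ^ 2 / (P.u : ℝ) ^ 4) ≤ η / 4 * (m : ℝ) ^ 2 := by
  set e := P.e with he
  set u := (P.u : ℝ) with hu
  have hu2 : u = 2 ^ e := by simp [hu, Params.u, he]
  have hu1 : 1 ≤ u := Nat.one_le_cast.2 hN.u_pos
  have hu0 : 0 < u := by linarith
  have he12r : (12 : ℝ) ≤ e := by exact_mod_cast hN.e12
  have h1 : 200 * (P.A : ℝ) * lamOf P * (e + 1) ≤ 20000 * (e : ℝ) ^ 3 := by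
    rw [lamOf, ← he]
    push_cast
    have hAe' : (P.A : ℝ) ≤ e := by
      exact_mod_cast le_trans (Nat.le_mul_of_pos_left _ (by norm_num : 0 < 10)) hN.A10
    calc 200 * (P.A : ℝ) * (24 * (e : ℝ) + 24) * ((e : ℝ) + 1)
        ≤ 200 * (e : ℝ) * (48 * e) * (2 * e) := by gcongr <;> linarith
      _ ≤ _ := by nlinarith [pow_nonneg (show (0 : ℝ) ≤ e by positivity) 3]
  have h2 : 20000 * (e : ℝ) ^ 3 ≤ η / 4 * u ^ 4 := by
    have : u ≤ u ^ 4 := le_self_pow₀ hu1 (by norm_num)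
    rw [← hu2] at hp3
    nlinarith [mul_le_mul_of_nonneg_left this (show (0 : ℝ) ≤ η by linarith), mul_pos hη hu0]
  rw [mul_div_assoc', div_le_iff₀ (by positivity)]
  nlinarith [mul_le_mul_of_nonneg_right (h1.trans h2) (sq_nonneg (m : ℝ))]

/-- The short vector term. -/
lemma Nice.short_term (hN : Nice P m) {η C : ℝ} {k : ℕ} (hη : 0 < η) (hC : 0 < C)
    (hpk : (P.e : ℝ) ^ (k + 1) ≤ η / (64 * C * (48 : ℝ) ^ k) * 2 ^ P.e) (hmη : 24 / η ≤ (m : ℝ)) :
    2 * (m : ℝ) * (⌈2 * (C * Real.log ((m : ℝ) + 2) ^ k *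
      ((P.D : ℝ) ^ 2 * P.Θ m + 1))⌉₊ : ℝ) ≤ η / 2 * (m : ℝ) ^ 2 := by
  set e := P.e with he
  set u := (P.u : ℝ) with hu
  have hu2 : u = 2 ^ e := by simp [hu, Params.u, he]
  have hu1 : 1 ≤ u := Nat.one_le_cast.2 hN.u_pos
  have hu0 : 0 < u := by linarith
  have he12r : (12 : ℝ) ≤ e := by exact_mod_cast hN.e12
  have hmu : u ^ 16 ≤ m := by rw [hu]; exact_mod_cast hN.low
  have hm0 : (0 : ℝ) < m := lt_of_lt_of_le (by positivity) hmu
  have hD := hN.D2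
  have hlog : Real.log ((m : ℝ) + 2) ≤ 48 * e := by
    have h1 : (m : ℝ) + 2 ≤ 2 ^ lamOf P := by
      have := hN.sizes.2.2.1
      have : 0 < m := Nat.cast_pos.1 hm0
      have : m + 2 ≤ 2 ^ lamOf P := by omega
      exact_mod_cast this
    have h2 := Real.log_le_log (by positivity) h1
    rw [Real.log_pow, lamOf, ← he] at h2
    push_cast at h2
    nlinarith [Real.log_two_lt_d9, Real.log_pos (show (1 : ℝ) < 2 by norm_num)]
  have hDΘ : (P.D : ℝ) ^ 2 * P.Θ m + 1 ≤ 3 * e * (m / u ^ 3) := by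
    have hD' : (P.D : ℝ) ^ 2 ≤ u := by rw [hu]; exact_mod_cast hD
    have h3 : 1 ≤ (m : ℝ) / u ^ 3 := by
      rw [le_div_iff₀ (by positivity), one_mul]
      exact le_trans (pow_le_pow_right₀ hu1 (by norm_num)) hmu
    have hΘ : P.Θ m = (e + 1 : ℝ) * m / u ^ 4 := by
      rw [Params.Θ, Params.s, ← he]; push_cast; rfl
    have : (P.D : ℝ) ^ 2 * P.Θ m ≤ (e + 1 : ℝ) * (m / u ^ 3) := by
      rw [hΘ]
      refine (mul_le_mul_of_nonneg_right hD' (by positivity)).trans (le_of_eq ?_)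
      field_simp
    nlinarith [mul_le_mul_of_nonneg_left h3 (show (0 : ℝ) ≤ (e : ℝ) by positivity)]
  have hpos : 0 ≤ 2 * (C * Real.log ((m : ℝ) + 2) ^ k * ((P.D : ℝ) ^ 2 * P.Θ m + 1)) := by
    have : 0 ≤ P.Θ m := by rw [Params.Θ]; positivity
    have : 0 ≤ Real.log ((m : ℝ) + 2) := Real.log_nonneg (by linarith)
    positivity
  have hceil := Nat.ceil_lt_add_one hpos
  have hbound : 2 * (C * Real.log ((m : ℝ) + 2) ^ k * ((P.D : ℝ) ^ 2 * P.Θ m + 1)) ≤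
      η / 8 * m := by
    have hl0 : 0 ≤ Real.log ((m : ℝ) + 2) := Real.log_nonneg (by linarith)
    calc 2 * (C * Real.log ((m : ℝ) + 2) ^ k * ((P.D : ℝ) ^ 2 * P.Θ m + 1))
        ≤ 2 * (C * (48 * (e : ℝ)) ^ k * (3 * e * (m / u ^ 3))) := by
          gcongr
          have : 0 ≤ P.Θ m := by rw [Params.Θ]; positivity
          positivity
      _ = 6 * C * (48 : ℝ) ^ k * (e : ℝ) ^ (k + 1) * (m / u ^ 3) := by rw [mul_pow]; ring
      _ ≤ 6 * C * (48 : ℝ) ^ k * (η / (64 * C * (48 : ℝ) ^ k) * u) * (m / u ^ 3) := by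
          rw [hu2] at *
          gcongr
      _ = 3 * η / 32 * m / u ^ 2 := by field_simp; ring
      _ ≤ η / 8 * m := by
          rw [div_le_iff₀ (by positivity)]
          nlinarith [one_le_pow₀ hu1 (n := 2), mul_pos hη hm0]
  have hη24 : 24 ≤ η * m := by rw [div_le_iff₀ hη] at hmη; linarith
  nlinarith [mul_le_mul_of_nonneg_left (hceil.le.trans (add_le_add hbound le_rfl))
    (show (0 : ℝ) ≤ 2 * m by positivity), mul_le_mul_of_nonneg_left hη24 hm0.le]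

/-- Everything needed at large sizes. -/
lemma eventually_size (η C : ℝ) (k : ℕ) (hη : 0 < η) (hC : 0 < C) :
    ∀ᶠ m : ℕ in atTop, Nice (pOf η m) m ∧
      ((pOf η m).Φ m (lamOf (pOf η m)) ⌈2 * (C * Real.log ((m : ℝ) + 2) ^ k *
        (((pOf η m).D : ℝ) ^ 2 * (pOf η m).Θ m + 1))⌉₊ : ℝ) ≤ η * (m : ℝ) ^ 2 := by
  set κ := min (1 / 10) (η / 96) with hκdef
  have hκ : 0 < κ := lt_min (by norm_num) (by positivity)
  have he : Tendsto eOf atTop atTop := tendsto_atTop.2 fun N =>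
    eventually_atTop.2 ⟨2 ^ (16 * N), fun m hm => le_eOf N hm⟩
  filter_upwards [eventually_aOf κ hκ, he.eventually (eventually_ge_atTop 12),
    he.eventually (eventually_poly 3 (η / (1000000 : ℝ)) (by positivity)),
    he.eventually (eventually_poly (k + 1) (η / (64 * C * (48 : ℝ) ^ k)) (by positivity)),
    eventually_gt_atTop 0, tendsto_natCast_atTop_atTop.eventually_ge_atTop (24 / η)]
    with m hA he12 hp3 hpk hm hmη
  set P := pOf η m with hP
  set e := eOf m with he'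
  have hPe : P.e = e := rfl
  have hPA : P.A = aOf m := rfl
  have hA1 : 1 ≤ aOf m := Nat.le_add_left _ _
  have hA1r : (1 : ℝ) ≤ aOf m := Nat.one_le_cast.2 hA1
  have hAe : (aOf m : ℝ) ≤ κ * e := le_trans (le_self_pow₀ hA1r (by norm_num)) hA
  have he12r : (12 : ℝ) ≤ e := by exact_mod_cast he12
  have hA10 : 10 * aOf m ≤ e := by
    have : (10 : ℝ) * aOf m ≤ e := by nlinarith [min_le_left (1 / 10 : ℝ) (η / 96)]
    exact_mod_cast this
  have hD : P.D ^ 2 ≤ P.u := by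
    show (2 ^ ⌈(aOf m : ℝ) / η⌉₊) ^ 2 ≤ 2 ^ e
    rw [← pow_mul]
    refine Nat.pow_le_pow_right two_pos ?_
    have h1 := Nat.ceil_lt_add_one (show 0 ≤ (aOf m : ℝ) / η by positivity)
    have h2 : (aOf m : ℝ) / η ≤ e / 4 := by
      rw [div_le_iff₀ hη]
      nlinarith [min_le_right (1 / 10 : ℝ) (η / 96)]
    have : ((⌈(aOf m : ℝ) / η⌉₊ * 2 : ℕ) : ℝ) ≤ e := by push_cast; linarith
    exact_mod_cast this
  have hN : Nice P m :=
    { e12 := he12
      A1 := hA1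
      A10 := hA10
      D1 := Nat.one_le_two_pow
      D2 := hD
      low := pow_eOf_le hm.ne'
      high := lt_pow_eOf m }
  refine ⟨hN, (hN.phi_le _).trans ?_⟩
  set u := (P.u : ℝ) with hu
  have hu2 : u = 2 ^ e := by simp [hu, Params.u, hPe]
  have hu1 : 1 ≤ u := Nat.one_le_cast.2 hN.u_pos
  have hu0 : 0 < u := by linarith
  have hm0 : (0 : ℝ) < m := Nat.cast_pos.2 hm
  have hmu : u ^ 16 ≤ m := by rw [hu]; exact_mod_cast hN.low
  -- the main term
  have hT1 : 12 * (P.A : ℝ) ^ 2 * (m : ℝ) ^ 2 / P.e ≤ η / 4 * (m : ℝ) ^ 2 := by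
    rw [hPA, hPe, div_le_iff₀ (by positivity)]
    nlinarith [mul_le_mul_of_nonneg_left hA (sq_nonneg (m : ℝ)),
      mul_le_mul_of_nonneg_left (min_le_right (1 / 10 : ℝ) (η / 96))
        (show (0 : ℝ) ≤ (e : ℝ) * (m : ℝ) ^ 2 by positivity)]
  have hT3 := hN.poly_term hη (by rw [hPe]; exact hp3)
  have hT2 := hN.short_term hη hC (k := k) (by rw [hPe]; exact hpk) hmη
  linarith

end Vale.Agent.P160R.Fam
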