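import Mathlib

/-!
# Few points of a translated lattice in a small ball; few small subgroups of a torus
-/

namespace Vale.Agent.P160R.Fam

open Finset

variable {κ : Type} [Fintype κ] [DecidableEq κ]

/-- A signed unit vector, or zero. -/
def stepVec : Option (κ × Bool) → κ → ℤ
  | none => 0
  | some (a, b) => Pi.single a (if b then 1 else -1)

lemma exists_word : ∀ (T : ℕ) (c : κ → ℤ), ∑ a, |c a| ≤ T →
    ∃ w : Fin T → Option (κ × Bool), c = ∑ t, stepVec (w t) := by
  intro T
  induction T with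
  | zero =>
    intro c hc
    refine ⟨fun t => t.elim0, funext fun a => ?_⟩
    have h : |c a| ≤ 0 :=
      (single_le_sum (f := fun a => |c a|) (fun _ _ => abs_nonneg _) (mem_univ a)).trans
        (by simpa using hc)
    simpa using abs_nonpos_iff.1 h
  | succ T ih =>
    intro c hc
    by_cases h0 : c = 0
    · refine ⟨fun _ => none, ?_⟩
      simp [h0, stepVec]
    obtain ⟨a, ha⟩ := Function.ne_iff.1 h0
    set b : Bool := decide (0 < c a) with hb
    have key : |c a - (stepVec (some (a, b))) a| = |c a| - 1 := by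
      rcases lt_or_gt_of_ne ha with h | h
      · have h' : ¬ (0 < c a) := fun h' => absurd h (not_lt.2 h'.le)
        simp only [Pi.zero_apply] at h
        simp [hb, stepVec, h', abs_of_neg h]
        rw [abs_of_nonpos (by omega)]
        ring
      · simp only [Pi.zero_apply] at h
        simp [hb, stepVec, h, abs_of_pos h]
        omega
    have hrest : ∀ x ∈ univ.erase a, |(c - stepVec (some (a, b))) x| = |c x| := fun x hx => by
      simp [stepVec, (Finset.mem_erase.1 hx).1]
    obtain ⟨w, hw⟩ := ih (c - stepVec (some (a, b))) (by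
      rw [← add_sum_erase _ _ (mem_univ a), sum_congr rfl hrest]
      rw [← add_sum_erase _ _ (mem_univ a)] at hc
      simp only [Pi.sub_apply, key]
      push_cast at hc ⊢
      linarith)
    refine ⟨Fin.cons (some (a, b)) w, ?_⟩
    simp only [Fin.sum_univ_succ, Fin.cons_zero, Fin.cons_succ, ← hw]
    abel

/-- Integer vectors in a ball are few. -/
lemma intBall_card (T : ℕ) (S : Finset (κ → ℤ)) (h : ∀ c ∈ S, ∑ a, c a ^ 2 ≤ T) :
    S.card ≤ (2 * Fintype.card κ + 1) ^ T := by
  have hsub : S ⊆ (univ : Finset (Fin T → Option (κ × Bool))).image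
      fun w => ∑ t, stepVec (w t) := fun c hc => by
    obtain ⟨w, hw⟩ := exists_word T c ((sum_le_sum fun a _ => by
      rw [← sq_abs]
      exact Int.le_self_sq _).trans (h c hc))
    exact mem_image.2 ⟨w, mem_univ _, hw.symm⟩
  refine ((card_le_card hsub).trans card_image_le).trans_eq ?_
  simp [Fintype.card_option, mul_comm]

/-- Points of a translate of `j⁻¹ ℤ^κ` in a ball are few. -/
lemma coset_ball_card (S : Finset (κ → ℝ)) {j : ℕ} (hj : 0 < j) (ρ : ℕ)
    (h1 : ∀ y ∈ S, ∑ a, y a ^ 2 ≤ ρ)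
    (h2 : ∀ y ∈ S, ∀ y' ∈ S, ∀ a, ∃ c : ℤ, (j : ℝ) * (y a - y' a) = c) :
    S.card ≤ (2 * Fintype.card κ + 1) ^ (4 * j ^ 2 * ρ) := by
  classical
  rcases S.eq_empty_or_nonempty with rfl | ⟨y0, hy0⟩
  · simp
  set f : (κ → ℝ) → κ → ℤ := fun y a => round ((j : ℝ) * (y a - y0 a)) with hf
  have hfe : ∀ y ∈ S, ∀ a, (f y a : ℝ) = j * (y a - y0 a) := fun y hy a => by
    obtain ⟨c, hc⟩ := h2 y hy y0 hy0 a
    simp [hf, hc]
  have hinj : Set.InjOn f S := fun y hy y' hy' he => funext fun a => by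
    have e1 := hfe y hy a
    rw [he, hfe y' hy' a] at e1
    have := mul_left_cancel₀ (Nat.cast_ne_zero.2 hj.ne') e1
    linarith
  rw [← card_image_of_injOn hinj]
  refine intBall_card _ _ fun c hc => ?_
  obtain ⟨y, hy, rfl⟩ := mem_image.1 hc
  have : ((∑ a, f y a ^ 2 : ℤ) : ℝ) ≤ ((4 * j ^ 2 * ρ : ℕ) : ℝ) := by
    push_cast
    calc ∑ a, (f y a : ℝ) ^ 2 ≤ ∑ a, (j : ℝ) ^ 2 * (2 * y a ^ 2 + 2 * y0 a ^ 2) := by
          refine sum_le_sum fun a _ => ?_
          rw [hfe y hy, mul_pow]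
          refine mul_le_mul_of_nonneg_left ?_ (sq_nonneg _)
          nlinarith [sq_nonneg (y a + y0 a)]
      _ = (j : ℝ) ^ 2 * (2 * ∑ a, y a ^ 2 + 2 * ∑ a, y0 a ^ 2) := by
          rw [← mul_sum, sum_add_distrib, ← mul_sum, ← mul_sum]
      _ ≤ (j : ℝ) ^ 2 * (2 * ρ + 2 * ρ) := by
          refine mul_le_mul_of_nonneg_left ?_ (sq_nonneg _)
          linarith [h1 y hy, h1 y0 hy0]
      _ = _ := by ring
  exact_mod_cast this

end Vale.Agent.P160R.Fam
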