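import Vale.Agent.P160R.Family.Fibre

/-!
# All regular lattices together
-/

namespace Vale.Agent.P160R.Fam

open Finset Matrix

variable {ι : Type} [Fintype ι] [DecidableEq ι]

/-- The exponent of the family size. -/
def Params.Φ (P : Params) (m lam Λ : ℕ) : ℕ :=
  (lam * (P.s * P.k0 m) + lam * ((P.e + 1) * P.k1 m) + lam + P.A * m * (2 * (P.k0 m + P.k1 m)) +
      lam * m + lam * m) +
    (40 * P.n * (P.s ^ 2 + P.e) * (P.A * m) + m * (lam + 2 * Λ) + 16 * P.n ^ 2 * P.T m * lam +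
      4 * P.u ^ 4 * lam * m)

/-- Few projections of regular lattices. -/
lemma regular_card [Nonempty ι] (P : Params) (he : 12 ≤ P.e) {Λ lam : ℕ}
    (hcount : ∀ (M : Matrix ι ι ℝ), Sparse M P.D → ∀ (δ : ℕ) (N : Matrix ι ι ℤ), 0 < δ →
      toR N = (δ : ℝ) • M → ∃ S : Finset (ι → ℝ), S.card ≤ 2 ^ Λ ∧
        ∀ z : ι → ℤ, (∑ i, (M *ᵥ castVec z) i ^ 2) ≤ P.Θ (Fintype.card ι) →
          (M *ᵥ castVec z) ∈ S)
    (hk : 2 * (P.k0 (Fintype.card ι) + P.k1 (Fintype.card ι)) + 1 ≤ 2 ^ lam)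
    (hn : P.n ≤ 2 ^ lam) (hm : 2 * Fintype.card ι + 1 ≤ 2 ^ lam)
    (hu : Fintype.card ι * (P.u + 1) ≤ 2 ^ lam) (hT : P.T (Fintype.card ι) + 1 ≤ 2 ^ lam)
    (hA : Fintype.card ι ≤ P.e * P.k0 (Fintype.card ι)) :
    ∃ F : Finset (Matrix ι ι ℝ), F.card ≤ 2 ^ P.Φ (Fintype.card ι) lam Λ ∧
      ∀ (r : ℕ) (Z : Matrix ι (Fin r) ℤ), P.Reg Z → proj Z ∈ F := by
  classical
  set m := Fintype.card ι with hmdef
  choose G hG hGmem using fun c : Code P ι => fibre (by omega) hcount ⟨hk, hn⟩ hm hA c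
  let dom := (univ : Finset (Fin (P.k0 m) → Fin P.s → ι × Bool)) ×ˢ
    ((univ : Finset (Fin (P.k1 m) → Fin (P.e + 1) → ι × Fin (P.u + 1))) ×ˢ
      ((univ : Finset (Fin (P.u + 1))) ×ˢ (smallSubs (P.k0 m + P.k1 m) (2 ^ (P.A * m)) ×ˢ
        ((univ : Finset (ι → Fin (P.T m + 1))) ×ˢ (univ : Finset (ι → Fin (P.T m + 1)))))))
  let codes : Finset (Code P ι) :=
    dom.image fun d => ⟨d.1, d.2.1, d.2.2.1, d.2.2.2.1, d.2.2.2.2.1, d.2.2.2.2.2⟩
  refine ⟨codes.biUnion G, ?_, fun r Z hZ => ?_⟩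
  · refine (card_biUnion_le_card_mul _ _ _ fun c _ => hG c).trans ?_
    rw [Params.Φ, pow_add _ (_ + _ + _ + _ + _ + _)]
    refine Nat.mul_le_mul_right _ ?_
    have hu1 : P.u + 1 ≤ 2 ^ lam := le_trans (Nat.le_mul_of_pos_left _ Fintype.card_pos) hu
    have h2m : m * 2 ≤ 2 ^ lam := by omega
    refine card_image_le.trans ?_
    simp only [dom, card_product, card_univ, Fintype.card_fun, Fintype.card_prod, Fintype.card_fin,
      Fintype.card_bool, ← hmdef]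
    rw [show 2 ^ (lam * (P.s * P.k0 m) + lam * ((P.e + 1) * P.k1 m) + lam +
        P.A * m * (2 * (P.k0 m + P.k1 m)) + lam * m + lam * m) =
      ((2 ^ lam) ^ P.s) ^ P.k0 m * (((2 ^ lam) ^ (P.e + 1)) ^ P.k1 m * (2 ^ lam *
        ((2 ^ (P.A * m)) ^ (2 * (P.k0 m + P.k1 m)) * ((2 ^ lam) ^ m * (2 ^ lam) ^ m)))) by
      simp only [← pow_mul, ← pow_add]
      congr 1
      ring]
    gcongr
    exact smallSubs_card _ _ Nat.one_le_two_pow
  · obtain ⟨c, hc⟩ := exists_code_of_reg he hZ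
    refine mem_biUnion.2 ⟨c, ?_, hGmem c r Z hZ hc⟩
    refine mem_image.2 ⟨(c.σ, c.w, c.q, c.img, c.r0, c.r1), ?_, rfl⟩
    obtain ⟨hfin, hcard⟩ := glue_finite Z hZ.1
    have hsurj : Function.Surjective fun g : (glue Z).range =>
        (⟨_, AddSubgroup.mem_map_of_mem _ g.2⟩ : (glue Z).range.map (applyTests c.tests)) :=
      fun ⟨_, g, hg, he⟩ => ⟨⟨g, hg⟩, Subtype.ext he⟩
    simp only [dom, mem_product, mem_univ, true_and, and_true]
    refine mem_smallSubs _ _ _ ?_ ?_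
    · rw [hc.img]; exact Finite.of_surjective _ hsurj
    · rw [hc.img]
      exact (Nat.card_le_card_of_surjective _ hsurj).trans (hcard.trans hZ.2.1)

end Vale.Agent.P160R.Fam
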