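import Mathlib

/-!
# Test vectors generating a finite quotient up to small exponent
-/

namespace Vale.Agent.P160R.Fam

open Finset

variable {ι : Type} [Fintype ι] [DecidableEq ι]

/-- A sparse integer vector of small height. -/
def testVec {t u : ℕ} (w : Fin t → ι × Fin (u + 1)) : ι → ℤ :=
  ∑ l, Pi.single (w l).1 ((w l).2.val : ℤ)

/-- Either a small number kills all generators, or a sparse combination has large order. -/
lemma exists_big_order [Nonempty ι] {Q : Type*} [AddCommGroup Q] [Finite Q] (g : ι → Q) (e : ℕ) :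
    (∃ q, 1 ≤ q ∧ q ≤ 2 ^ e ∧ ∀ i, q • g i = 0) ∨
      ∃ w : Fin (e + 1) → ι × Fin (2 ^ e + 1), 2 ^ e < addOrderOf (∑ t, (w t).2.val • g (w t).1) := by
  classical
  by_contra hno
  rw [not_or] at hno
  obtain ⟨h1, h2⟩ := hno
  push Not at h1 h2
  obtain ⟨i0⟩ := ‹Nonempty ι›
  have hpad : ∀ t ≤ e + 1, ∀ w : Fin t → ι × Fin (2 ^ e + 1),
      addOrderOf (∑ l, (w l).2.val • g (w l).1) ≤ 2 ^ e := fun t ht w => by
    obtain ⟨p, hp⟩ := Nat.exists_eq_add_of_le ht
    have h := h2 (fun l => Fin.append w (fun _ : Fin p => (i0, 0)) (Fin.cast hp l))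
    refine le_of_eq_of_le (congrArg addOrderOf ?_) h
    refine Eq.symm ((Fintype.sum_equiv (finCongr hp) _
      (fun l => ((Fin.append w (fun _ : Fin p => (i0, (0 : Fin (2 ^ e + 1)))) l).2.val) •
        g (Fin.append w (fun _ : Fin p => (i0, (0 : Fin (2 ^ e + 1)))) l).1) fun _ => rfl).trans ?_)
    rw [Fin.sum_univ_add]
    simp
  have hord : ∀ i, addOrderOf (g i) ≤ 2 ^ e := fun i => by
    have h := hpad 1 (by omega) (fun _ => (i, ⟨1, by have := Nat.one_le_two_pow (n := e); omega⟩))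
    simpa using h
  have hgrow : ∀ t ≤ e + 1, ∃ w : Fin t → ι × Fin (2 ^ e + 1),
      2 ^ t ≤ addOrderOf (∑ l, (w l).2.val • g (w l).1) := by
    intro t
    induction t with
    | zero => exact fun _ => ⟨fun l => l.elim0, by simp⟩
    | succ t ih =>
      intro ht
      obtain ⟨w, hw⟩ := ih (by omega)
      set x := ∑ l, (w l).2.val • g (w l).1 with hx
      obtain ⟨i, hi⟩ := h1 (addOrderOf x) (addOrderOf_pos x) (hpad t (by omega) w)
      have hndvd : ¬ addOrderOf (g i) ∣ addOrderOf x := fun h =>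
        hi (addOrderOf_dvd_iff_nsmul_eq_zero.1 h)
      have hlcm := (AddCommute.all x (g i)).addOrderOf_add_nsmul_eq_lcm
        (addOrderOf_pos x).ne' (addOrderOf_pos (g i)).ne'
      set a := addOrderOf x / Nat.factorizationLCMLeft (addOrderOf x) (addOrderOf (g i))
      set b := addOrderOf (g i) / Nat.factorizationLCMRight (addOrderOf x) (addOrderOf (g i))
      have hred : ∀ c j, c % addOrderOf (g j) < 2 ^ e + 1 := fun c j =>
        lt_of_lt_of_le (Nat.mod_lt _ (addOrderOf_pos (g j))) ((hord j).trans (Nat.le_succ _))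
      refine ⟨Fin.cons (i, ⟨b % addOrderOf (g i), hred b i⟩)
        fun l => ((w l).1, ⟨(a * (w l).2.val) % addOrderOf (g (w l).1), hred _ _⟩), ?_⟩
      simp only [Fin.sum_univ_succ, Fin.cons_zero, Fin.cons_succ, mod_addOrderOf_nsmul, mul_smul,
        ← Finset.smul_sum, ← hx]
      rw [add_comm (b • g i), hlcm]
      obtain ⟨c, hc⟩ := Nat.dvd_lcm_left (addOrderOf x) (addOrderOf (g i))
      have hc2 : 2 ≤ c := by
        rcases c with _ | _ | c
        · simp [(addOrderOf_pos x).ne', (addOrderOf_pos (g i)).ne'] at hc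
        · rw [zero_add, mul_one] at hc
          exact absurd (hc ▸ Nat.dvd_lcm_right (addOrderOf x) (addOrderOf (g i))) hndvd
        · omega
      rw [hc, pow_succ]
      exact Nat.mul_le_mul hw hc2
  obtain ⟨w, hw⟩ := hgrow (e + 1) le_rfl
  have := hpad (e + 1) le_rfl w
  rw [pow_succ] at hw
  have := Nat.one_le_two_pow (n := e)
  omega

/-- Greedy tests: few sparse vectors generate everything up to a small exponent. -/
lemma greedy [Nonempty ι] {A : Type*} [AddCommGroup A] [Finite A] (φ : (ι → ℤ) →+ A) (e : ℕ) :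
    ∀ H : AddSubgroup A, ∃ (k : ℕ) (w : Fin k → Fin (e + 1) → ι × Fin (2 ^ e + 1)) (q : ℕ),
      (2 ^ e) ^ k * Nat.card H ≤ Nat.card A ∧ 1 ≤ q ∧ q ≤ 2 ^ e ∧
      ∀ i, q • φ (Pi.single i 1) ∈ H ⊔ AddSubgroup.closure (Set.range fun l => φ (testVec (w l))) := by
  suffices h : ∀ (N : ℕ) (H : AddSubgroup A), Nat.card A ≤ N + Nat.card H →
      ∃ (k : ℕ) (w : Fin k → Fin (e + 1) → ι × Fin (2 ^ e + 1)) (q : ℕ),
      (2 ^ e) ^ k * Nat.card H ≤ Nat.card A ∧ 1 ≤ q ∧ q ≤ 2 ^ e ∧
      ∀ i, q • φ (Pi.single i 1) ∈ H ⊔ AddSubgroup.closure (Set.range fun l => φ (testVec (w l))) from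
    fun H => h _ H (Nat.le_add_right _ _)
  intro N
  induction N using Nat.strong_induction_on with
  | _ N ih =>
  intro H hN
  rcases exists_big_order (fun i => (QuotientAddGroup.mk (φ (Pi.single i 1)) : A ⧸ H)) e with
    ⟨q, hq1, hq2, hq⟩ | ⟨w, hw⟩
  · refine ⟨0, fun l => l.elim0, q, ?_, hq1, hq2, fun i => ?_⟩
    · rw [pow_zero, one_mul]
      exact Nat.card_le_card_of_injective _ Subtype.val_injective
    · refine AddSubgroup.mem_sup_left ((QuotientAddGroup.eq_zero_iff _).1 ?_)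
      rw [QuotientAddGroup.mk_nsmul]
      exact hq i
  set g := φ (testVec w) with hg
  have hgq : (QuotientAddGroup.mk' H g : A ⧸ H) =
      ∑ t, (w t).2.val • (QuotientAddGroup.mk (φ (Pi.single (w t).1 1)) : A ⧸ H) := by
    rw [hg, testVec, map_sum, map_sum]
    refine sum_congr rfl fun t _ => ?_
    rw [show (Pi.single (w t).1 ((w t).2.val : ℤ) : ι → ℤ) =
        (w t).2.val • Pi.single (w t).1 1 by rw [← Pi.single_smul, nsmul_eq_mul, mul_one],
      map_nsmul, map_nsmul]
    rfl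
  rw [← hgq] at hw
  set H' := H ⊔ AddSubgroup.zmultiples g with hH'
  have hgrow : (2 ^ e + 1) * Nat.card H ≤ Nat.card H' := by
    rw [← Nat.card_fin (2 ^ e + 1), ← Nat.card_prod]
    refine Nat.card_le_card_of_injective (fun p : Fin (2 ^ e + 1) × H =>
      (⟨p.1.val • g + p.2.1, add_mem (nsmul_mem (AddSubgroup.mem_sup_right
        (AddSubgroup.mem_zmultiples g)) _) (AddSubgroup.mem_sup_left p.2.2)⟩ : H'))
      fun p r hpr => ?_
    have h1 : p.1.val • g + p.2.1 = r.1.val • g + r.2.1 := congrArg Subtype.val hpr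
    have h2 : p.1 = r.1 := by
      refine Fin.ext (nsmul_injOn_Iio_addOrderOf (x := QuotientAddGroup.mk' H g)
        (lt_of_lt_of_le p.1.isLt hw) (lt_of_lt_of_le r.1.isLt hw) ?_)
      have := congrArg (QuotientAddGroup.mk' H) h1
      simpa [map_add, map_nsmul, (QuotientAddGroup.eq_zero_iff _).2 p.2.2,
        (QuotientAddGroup.eq_zero_iff _).2 r.2.2] using this
    refine Prod.ext h2 (Subtype.ext ?_)
    rw [h2] at h1
    exact add_left_cancel h1
  have hpos : 0 < Nat.card H := Nat.card_pos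
  have hle : Nat.card H' ≤ Nat.card A := Nat.card_le_card_of_injective _ Subtype.val_injective
  have hone := Nat.one_le_two_pow (n := e)
  have : Nat.card H < Nat.card H' := by nlinarith
  have hlt : Nat.card A - Nat.card H' < N := by omega
  obtain ⟨k, v, q, hk, hq1, hq2, hq⟩ := ih _ hlt H' (by omega)
  refine ⟨k + 1, Fin.cons w v, q, ?_, hq1, hq2, fun i => ?_⟩
  · refine le_trans ?_ hk
    rw [pow_succ, mul_assoc]
    exact Nat.mul_le_mul_left _ (le_trans (Nat.mul_le_mul_right _ (Nat.le_succ _)) hgrow)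
  · refine SetLike.le_def.1 (sup_le (sup_le le_sup_left ?_) ?_) (hq i)
    · refine AddSubgroup.zmultiples_le_of_mem (AddSubgroup.mem_sup_right ?_)
      exact AddSubgroup.subset_closure ⟨0, by simp [hg]⟩
    · refine le_trans (AddSubgroup.closure_mono ?_) le_sup_right
      rintro _ ⟨l, rfl⟩
      exact ⟨l.succ, by simp⟩

end Vale.Agent.P160R.Fam
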