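import Vale.Agent.P160R.Family.Lattice

/-!
# Regular lattices: few short vectors, small glue group
-/

namespace Vale.Agent.P160R.Fam

open Finset Matrix

variable {ι : Type} [Fintype ι] [DecidableEq ι]

/-- No sublattice of the image of `ℤ^ι` is dense at scale `1/D`. -/
def Sparse (M : Matrix ι ι ℝ) (D : ℕ) : Prop :=
  ∀ (u : ℕ) (z : Matrix ι (Fin u) ℤ), ((M * toR z)ᵀ * (M * toR z)).det ≠ 0 →
    1 ≤ ((M * toR z)ᵀ * (M * toR z)).det * (D : ℝ) ^ (2 * u)

/-- A minimiser of determinant times `D` to twice the distance. -/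
lemma exists_regular (D : ℕ) (hD : 1 ≤ D) {r0 : ℕ} (Z0 : Matrix ι (Fin r0) ℤ)
    (h0 : (Z0ᵀ * Z0).det ≠ 0) :
    ∃ (r : ℕ) (Z : Matrix ι (Fin r) ℤ), (Zᵀ * Z).det ≠ 0 ∧
      (rgram Z).det * (D : ℝ) ^ (2 * dist (spanZ Z0) (spanZ Z)) ≤ (rgram Z0).det ∧
      Sparse (proj Z) D ∧ Sparse (1 - proj Z) D := by
  classical
  have hdz : dist (spanZ Z0) (spanZ Z0) = 0 := by rw [dist, sup_idem, inf_idem, Nat.sub_self]
  let P : ℕ → Prop := fun v => ∃ (r : ℕ) (Z : Matrix ι (Fin r) ℤ), (Zᵀ * Z).det ≠ 0 ∧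
    (Zᵀ * Z).det.natAbs * D ^ (2 * dist (spanZ Z0) (spanZ Z)) = v
  have hex : ∃ v, P v := ⟨_, r0, Z0, h0, rfl⟩
  obtain ⟨r, Z, hZ, hv⟩ := Nat.find_spec hex
  have habs : ∀ {r' : ℕ} (Z' : Matrix ι (Fin r') ℤ), (Z'ᵀ * Z').det ≠ 0 →
      (((Z'ᵀ * Z').det.natAbs : ℕ) : ℝ) = (rgram Z').det := fun Z' h => by
    rw [rgram_det, Nat.cast_natAbs, abs_of_nonneg]
    have := rgram_det_pos h
    rw [rgram_det] at this
    exact_mod_cast this.le
  have hmin : ∀ (r' : ℕ) (Z' : Matrix ι (Fin r') ℤ), (Z'ᵀ * Z').det ≠ 0 →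
      (rgram Z).det * (D : ℝ) ^ (2 * dist (spanZ Z0) (spanZ Z)) ≤
        (rgram Z').det * (D : ℝ) ^ (2 * dist (spanZ Z0) (spanZ Z')) := fun r' Z' h => by
    have h1 := Nat.find_le (h := hex) (n := _) ⟨r', Z', h, rfl⟩
    rw [← hv] at h1
    have h2 := (Nat.cast_le (α := ℝ)).2 h1
    push_cast at h2
    rwa [habs Z hZ, habs Z' h] at h2
  have hD1 : (1 : ℝ) ≤ D := Nat.one_le_cast.2 hD
  have hpos := rgram_det_pos hZ
  refine ⟨r, Z, hZ, by simpa [hdz] using hmin r0 Z0 h0, ?_, ?_⟩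
  · intro u z hz
    set C := Zᵀ * z with hC
    have e : (proj Z * toR z)ᵀ * (proj Z * toR z) = (toR C)ᵀ * (rgram Z)⁻¹ * toR C := by
      rw [transpose_mul, proj_symm, Matrix.mul_assoc, ← Matrix.mul_assoc (proj Z), proj_idem hZ,
        hC, toR_mul, transpose_mul]
      simp only [proj, Matrix.mul_assoc]
      rfl
    rw [e] at hz ⊢
    obtain ⟨k, K, hku, hKpos, hKle⟩ := kernel_lattice _ (rgram_posDef hZ) C hz
    have eg : rgram (Z * K) = (toR K)ᵀ * rgram Z * toR K := by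
      simp only [rgram, toR_mul, transpose_mul, Matrix.mul_assoc]
    have hZ' : ((Z * K)ᵀ * (Z * K)).det ≠ 0 := fun hh => by
      rw [← eg, rgram_det, hh, Int.cast_zero] at hKpos
      exact lt_irrefl _ hKpos
    have hsub : spanZ (Z * K) ≤ spanZ Z := by
      rw [show spanZ Z = LinearMap.range (toR Z).mulVecLin from (range_mulVecLin _).symm,
        show spanZ (Z * K) = LinearMap.range (toR (Z * K)).mulVecLin from (range_mulVecLin _).symm,
        toR_mul, mulVecLin_mul]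
      exact LinearMap.range_comp_le_range _ _
    have hd := (dist_le_of_le (spanZ Z0) hsub (u := u) (by
      rw [finrank_spanZ hZ, finrank_spanZ hZ', Fintype.card_fin, Fintype.card_fin]; omega)).1
    have h := hmin _ _ hZ'
    rw [eg] at h
    have h' : (rgram Z).det * (D : ℝ) ^ (2 * dist (spanZ Z0) (spanZ Z)) ≤
        (rgram Z).det * ((toR C)ᵀ * (rgram Z)⁻¹ * toR C).det *
          (D : ℝ) ^ (2 * dist (spanZ Z0) (spanZ Z) + 2 * u) :=
      h.trans (mul_le_mul hKle (pow_le_pow_right₀ hD1 (by omega)) (by positivity)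
        (hKpos.le.trans hKle))
    rw [pow_add] at h'
    refine le_of_mul_le_mul_left ?_ (mul_pos hpos (pow_pos (lt_of_lt_of_le one_pos hD1)
      (2 * dist (spanZ Z0) (spanZ Z))))
    linarith
  · intro u z hz
    let Z' : Matrix ι (Fin (r + u)) ℤ := (Matrix.fromCols Z z).submatrix id finSumFinEquiv.symm
    have hM : ((1 - proj Z) * toR z)ᵀ * ((1 - proj Z) * toR z) =
        (toR z)ᵀ * toR z - (toR z)ᵀ * toR Z * (rgram Z)⁻¹ * ((toR Z)ᵀ * toR z) := by
      have hidem : (1 - proj Z) * (1 - proj Z) = 1 - proj Z := by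
        simp [Matrix.mul_sub, Matrix.sub_mul, proj_idem hZ]
      rw [transpose_mul, transpose_sub, transpose_one, proj_symm, Matrix.mul_assoc,
        ← Matrix.mul_assoc (1 - proj Z), hidem, Matrix.sub_mul, Matrix.one_mul, Matrix.mul_sub]
      simp only [proj, Matrix.mul_assoc]
    have hdet : (rgram Z').det =
        (rgram Z).det * (((1 - proj Z) * toR z)ᵀ * ((1 - proj Z) * toR z)).det := by
      have e : rgram Z' = (Matrix.fromBlocks (rgram Z) ((toR Z)ᵀ * toR z) ((toR z)ᵀ * toR Z)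
          ((toR z)ᵀ * toR z)).submatrix finSumFinEquiv.symm finSumFinEquiv.symm := by
        ext a b
        obtain ⟨a', rfl⟩ := finSumFinEquiv.surjective a
        obtain ⟨b', rfl⟩ := finSumFinEquiv.surjective b
        rcases a' with a' | a' <;> rcases b' with b' | b' <;>
          simp [rgram, Z', toR, Matrix.mul_apply]
      have : Invertible (rgram Z) := invertibleOfIsUnitDet _ (isUnit_iff_ne_zero.2 hpos.ne')
      rw [e, det_submatrix_equiv_self, det_fromBlocks₁₁, invOf_eq_nonsing_inv, hM]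
    have hZ' : (Z'ᵀ * Z').det ≠ 0 := fun hh => by
      rw [rgram_det, hh, Int.cast_zero] at hdet
      rcases mul_eq_zero.1 hdet.symm with h | h
      · exact hpos.ne' h
      · exact hz h
    have hsub : spanZ Z ≤ spanZ Z' := by
      refine Submodule.span_mono ?_
      rintro _ ⟨c, rfl⟩
      exact ⟨finSumFinEquiv (Sum.inl c), funext fun i => by simp [Z']⟩
    have hd := (dist_le_of_le (spanZ Z0) hsub (u := u) (by
      rw [finrank_spanZ hZ, finrank_spanZ hZ', Fintype.card_fin, Fintype.card_fin])).2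
    have h := hmin _ _ hZ'
    have hnn : 0 ≤ (rgram Z').det := (rgram_det_pos hZ').le
    have h' := h.trans (mul_le_mul_of_nonneg_left
      (pow_le_pow_right₀ hD1 (Nat.mul_le_mul_left 2 hd)) hnn)
    rw [hdet, Nat.mul_add, pow_add] at h'
    refine le_of_mul_le_mul_left ?_ (mul_pos hpos (pow_pos (lt_of_lt_of_le one_pos hD1)
      (2 * dist (spanZ Z0) (spanZ Z))))
    linarith

/-- Short vectors of a sparse projected lattice are few. -/
lemma count_short : ∃ (C : ℝ) (k : ℕ), 0 < C ∧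
    ∀ (ι : Type) [Fintype ι] [DecidableEq ι] (M : Matrix ι ι ℝ) (D : ℕ), 1 ≤ D → Sparse M D →
      ∀ (δ : ℕ) (N : Matrix ι ι ℤ), 0 < δ → toR N = (δ : ℝ) • M → ∀ Θ : ℝ, 0 ≤ Θ →
        ∃ S : Finset (ι → ℝ),
          (S.card : ℝ) ≤
            Real.exp (C * Real.log (Fintype.card ι + 2) ^ k * ((D : ℝ) ^ 2 * Θ + 1)) ∧
          ∀ z : ι → ℤ, (∑ i, (M *ᵥ fun a => (z a : ℝ)) i ^ 2) ≤ Θ →
            (M *ᵥ fun a => (z a : ℝ)) ∈ S := by
  obtain ⟨C, k, hC, hrm⟩ := reverse_minkowski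
  refine ⟨C, k, hC, fun ι _ _ M D hD hM δ N hδ hN Θ hΘ => ?_⟩
  classical
  obtain ⟨n, bR⟩ := Submodule.basisOfPid (Pi.basisFun ℤ ι) (LinearMap.range N.mulVecLin)
  choose pre hpre using fun c : Fin n => LinearMap.mem_range.1 (bR c).2
  let z : Matrix ι (Fin n) ℤ := Matrix.of fun i c => pre c i
  have hcols : ∀ v, (N * z) *ᵥ v = ∑ c, v c • (bR c).1 := fun v => by
    have hzv : z *ᵥ v = ∑ c, v c • pre c := funext fun i => by
      simp [z, mulVec, dotProduct, Finset.sum_apply, mul_comm]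
    rw [← mulVec_mulVec, hzv, Matrix.mulVec_sum]
    simp only [mulVec_smul, ← hpre, mulVecLin_apply]
  have hinj : ((N * z)ᵀ * (N * z)).det ≠ 0 := det_ne_zero_of_injective _ fun v hv => funext
    (Fintype.linearIndependent_iff.1 (bR.linearIndependent.map' _ (Submodule.ker_subtype _)) v
      (by rw [← hv, hcols]; rfl))
  have hn : n ≤ Fintype.card ι := by
    simpa using (bR.linearIndependent.map' _ (Submodule.ker_subtype _)).fintype_card_le_finrank
  have hδ' : (δ : ℝ) ≠ 0 := Nat.cast_ne_zero.2 hδ.ne'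
  have hD' : (0 : ℝ) < D := Nat.cast_pos.2 (by omega)
  have hV : toR (N * z) = (δ : ℝ) • (M * toR z) := by rw [toR_mul, hN, Matrix.smul_mul]
  set V := M * toR z with hVdef
  have hVinj : Function.Injective V.mulVec := fun a b hab => by
    refine toR_injective hinj ?_
    simp only [hV, smul_mulVec]
    rw [hab]
  set G := (D : ℝ) ^ 2 • (Vᵀ * V) with hG
  have hGpos : G.PosDef :=
    (by simpa using PosDef.conjTranspose_mul_self V hVinj : (Vᵀ * V).PosDef).smul (by positivity)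
  have hgood : ∀ (r : ℕ) (Z : Matrix (Fin n) (Fin r) ℤ),
      LinearIndependent ℚ (fun c i => (Z i c : ℚ)) →
        1 ≤ ((Z.map (Int.cast : ℤ → ℝ))ᵀ * G * Z.map (Int.cast : ℤ → ℝ)).det := by
    intro r Z hZ
    have e : (Z.map (Int.cast : ℤ → ℝ))ᵀ * G * Z.map (Int.cast : ℤ → ℝ) =
        (D : ℝ) ^ 2 • ((M * toR (z * Z))ᵀ * (M * toR (z * Z))) := by
      rw [hG, Matrix.mul_smul, Matrix.smul_mul, toR_mul, ← Matrix.mul_assoc M, ← hVdef, transpose_mul V]
      simp only [Matrix.mul_assoc]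
      rfl
    rw [e, det_smul, Fintype.card_fin, ← pow_mul, mul_comm]
    refine hM r (z * Z) ?_
    rw [toR_mul, ← Matrix.mul_assoc M, ← hVdef]
    have h := hGpos.conjTranspose_mul_mul_same (B := toR Z) (toR_injective (det_ne_zero_of_indep Z hZ))
    have h2 := h.det_pos
    rw [conjTranspose_eq_transpose_of_trivial, hG, Matrix.mul_smul, Matrix.smul_mul, det_smul] at h2
    intro h0
    rw [transpose_mul, show (toR Z)ᵀ * Vᵀ * (V * toR Z) = (toR Z)ᵀ * (Vᵀ * V) * toR Z by
      simp only [Matrix.mul_assoc]] at h0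
    rw [h0, mul_zero] at h2
    exact lt_irrefl _ h2
  obtain ⟨hfin, hcard⟩ := hrm n G hGpos hgood ((D : ℝ) ^ 2 * Θ) (by positivity)
  refine ⟨hfin.toFinset.image (fun v => V *ᵥ fun c => (v c : ℝ)), ?_, fun w hw => ?_⟩
  · have hlog : Real.log ((n : ℝ) + 2) ^ k ≤ Real.log ((Fintype.card ι : ℝ) + 2) ^ k :=
      pow_le_pow_left₀ (Real.log_nonneg (by linarith [Nat.cast_nonneg (α := ℝ) n]))
        (Real.log_le_log (by positivity) (by linarith [(Nat.cast_le (α := ℝ)).2 hn])) k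
    refine (Nat.cast_le.2 card_image_le).trans (le_trans ?_ (Real.exp_le_exp.2
      (mul_le_mul_of_nonneg_right (mul_le_mul_of_nonneg_left hlog hC.le) (by positivity))))
    rw [← Nat.card_eq_card_finite_toFinset]
    exact hcard
  · have hmem : N *ᵥ w ∈ LinearMap.range N.mulVecLin := ⟨w, rfl⟩
    set v := fun c => bR.repr ⟨_, hmem⟩ c with hv
    have he : (N * z) *ᵥ v = N *ᵥ w := by
      rw [hcols]
      have h := congrArg Subtype.val (bR.sum_repr ⟨_, hmem⟩)
      simpa only [AddSubmonoidClass.coe_finsetSum, Submodule.coe_smul, mulVecLin_apply] using h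
    have hVv : (V *ᵥ fun c => (v c : ℝ)) = M *ᵥ fun a => (w a : ℝ) := by
      refine smul_right_injective _ hδ' ?_
      simp only [← smul_mulVec, ← hV, ← hN]
      rw [← cast_mulVec, ← cast_mulVec, he]
    refine mem_image.2 ⟨v, hfin.mem_toFinset.2 ?_, hVv⟩
    show (fun i => (v i : ℝ)) ⬝ᵥ G *ᵥ (fun i => (v i : ℝ)) ≤ (D : ℝ) ^ 2 * Θ
    rw [hG, smul_mulVec, dotProduct_smul, smul_eq_mul, ← mulVec_mulVec, dotProduct_mulVec,
      vecMul_transpose, hVv]
    refine mul_le_mul_of_nonneg_left (le_of_eq_of_le ?_ hw) (by positivity)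
    simp [dotProduct, sq]

/-- The coordinates of a projected integer vector modulo one. -/
noncomputable def glue {κ : Type} [Fintype κ] [DecidableEq κ] (Z : Matrix ι κ ℤ) : (ι → ℤ) →+ (ι → UnitAddCircle) where
  toFun z a := ((proj Z *ᵥ fun b => (z b : ℝ)) a : UnitAddCircle)
  map_zero' := funext fun a => by simp [mulVec, dotProduct]
  map_add' x y := funext fun a => by
    simp only [Pi.add_apply, ← AddCircle.coe_add]
    congr 1
    simp [mulVec, dotProduct, mul_add, Finset.sum_add_distrib]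

/-- The glue group has at most determinant many elements. -/
lemma glue_finite {κ : Type} [Fintype κ] [DecidableEq κ] (Z : Matrix ι κ ℤ)
    (hZ : (Zᵀ * Z).det ≠ 0) :
    Finite (glue Z).range ∧ Nat.card (glue Z).range ≤ (Zᵀ * Z).det.natAbs := by
  classical
  let ψ : (κ → ℤ) →+ (ι → UnitAddCircle) :=
    { toFun := fun c a => (((toR Z * (rgram Z)⁻¹) *ᵥ fun b => (c b : ℝ)) a : UnitAddCircle)
      map_zero' := funext fun a => by simp [mulVec, dotProduct]
      map_add' := fun x y => funext fun a => by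
        simp only [Pi.add_apply, ← AddCircle.coe_add]
        congr 1
        simp [mulVec, dotProduct, mul_add, Finset.sum_add_distrib] }
  set L := (Zᵀ * Z).mulVecLin with hL
  have hLinj : Function.Injective L := fun x y hxy => by
    by_contra hne
    exact hZ (exists_mulVec_eq_zero_iff.1 ⟨x - y, sub_ne_zero.2 hne, by
      simp only [hL, mulVecLin_apply] at hxy
      rw [mulVec_sub, hxy, sub_self]⟩)
  set R := (LinearMap.range L).toAddSubgroup with hR
  let bR : Module.Basis κ ℤ R := (Pi.basisFun ℤ κ).map (LinearEquiv.ofInjective L hLinj)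
  have hidx : R.index = (Zᵀ * Z).det.natAbs := by
    rw [AddSubgroup.index_eq_natAbs_det (Pi.basisFun ℤ κ) R bR, Module.Basis.det_apply]
    congr 2
    ext i c
    rw [Module.Basis.toMatrix_apply, Pi.basisFun_repr]
    show L ((Pi.basisFun ℤ κ) c) i = _
    rw [hL, mulVecLin_apply, Pi.basisFun_apply, mulVec_single_one]
    rfl
  have hker : R ≤ ψ.ker := by
    rintro x ⟨c, rfl⟩
    refine AddMonoidHom.mem_ker.2 (funext fun a => ?_)
    simp only [ψ, AddMonoidHom.coe_mk, ZeroHom.coe_mk, Pi.zero_apply]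
    refine AddCircle.coe_eq_zero_iff _ |>.2 ⟨(Z *ᵥ c) a, ?_⟩
    have e : (fun b => (L c b : ℝ)) = rgram Z *ᵥ fun b => (c b : ℝ) := by
      rw [show rgram Z = toR (Zᵀ * Z) by rw [toR_mul, toR_transpose, rgram], ← cast_mulVec]
      rfl
    rw [e, mulVec_mulVec, Matrix.mul_assoc, nonsing_inv_mul _
      (isUnit_iff_ne_zero.2 (rgram_det_ne hZ)), Matrix.mul_one]
    simp [toR, mulVec, dotProduct]
  have hdvd := AddSubgroup.index_dvd_of_le hker
  rw [hidx, AddSubgroup.index_ker] at hdvd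
  have hne : Nat.card ψ.range ≠ 0 := fun h0 => by
    rw [h0, zero_dvd_iff, Int.natAbs_eq_zero] at hdvd
    exact hZ hdvd
  have hfin : Finite ψ.range := Nat.finite_of_card_ne_zero hne
  have hsub : (glue Z).range ≤ ψ.range := by
    rintro _ ⟨z, rfl⟩
    refine ⟨Zᵀ *ᵥ z, funext fun a => ?_⟩
    have e : (fun b => ((Zᵀ *ᵥ z) b : ℝ)) = (toR Z)ᵀ *ᵥ fun b => (z b : ℝ) := by
      funext b
      simp [toR, mulVec, dotProduct]
    simp only [ψ, glue, AddMonoidHom.coe_mk, ZeroHom.coe_mk, e, mulVec_mulVec, proj]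
  refine ⟨Finite.of_injective (AddSubgroup.inclusion hsub) (AddSubgroup.inclusion_injective hsub), ?_⟩
  exact (Nat.card_le_card_of_injective _ (AddSubgroup.inclusion_injective hsub)).trans
    (Nat.le_of_dvd (Int.natAbs_pos.2 hZ) hdvd)

end Vale.Agent.P160R.Fam
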