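import Mathlib

/-!
# A torus has few small subgroups
-/

namespace Vale.Agent.P160R.Fam

open Finset
open scoped Classical

/-- The `n`-torsion of the circle. -/
noncomputable def torsion (n : ℕ) : Finset UnitAddCircle :=
  (Finset.range n).image fun i => (((i : ℕ) : ℝ) / n : ℝ)

lemma mem_torsion {n : ℕ} (hn : 0 < n) (u : UnitAddCircle) : u ∈ torsion n ↔ n • u = 0 := by
  rw [AddCircle.nsmul_eq_zero_iff hn]
  simp [torsion]

lemma torsion_card (n : ℕ) : (torsion n).card ≤ n :=
  card_image_le.trans (by simp)

/-- A finite subgroup of the circle of order `n` contains `1/n`. -/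
lemma circle_subgroup (P : AddSubgroup UnitAddCircle) [Finite P] :
    (((1 : ℝ) / Nat.card P : ℝ) : UnitAddCircle) ∈ P := by
  have hn : 0 < Nat.card P := Nat.card_pos
  have : Fintype P := Fintype.ofFinite P
  have hsub : (P : Set UnitAddCircle).toFinset ⊆ torsion (Nat.card P) := fun u hu => by
    rw [mem_torsion hn]
    have hu' : u ∈ P := by simpa using hu
    have h0 : Nat.card P • (⟨u, hu'⟩ : P) = 0 := card_nsmul_eq_zero'
    exact congrArg Subtype.val h0
  have hcard : (P : Set UnitAddCircle).toFinset.card = Nat.card P := by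
    rw [Set.toFinset_card, Nat.card_eq_fintype_card]
    rfl
  have heq := eq_of_subset_of_card_le hsub ((torsion_card _).trans hcard.ge)
  have : (((1 : ℝ) / Nat.card P : ℝ) : UnitAddCircle) ∈ (P : Set UnitAddCircle).toFinset := by
    rw [heq, mem_torsion hn, ← AddCircle.coe_nsmul, nsmul_eq_mul, mul_one_div,
      div_self (Nat.cast_ne_zero.2 hn.ne')]
    exact AddCircle.coe_period 1
  simpa using this

/-- The `n`-th roots of a point of the torus. -/
noncomputable def roots {k : ℕ} (n : ℕ) (t : Fin k → UnitAddCircle) : Finset (Fin k → UnitAddCircle) :=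
  (Fintype.piFinset fun _ : Fin k => torsion n).image
    fun u a => u a + (((AddCircle.equivIco 1 0 (t a) : ℝ) / n : ℝ) : UnitAddCircle)

lemma roots_card {k : ℕ} (n : ℕ) (t : Fin k → UnitAddCircle) : (roots n t).card ≤ n ^ k := by
  refine card_image_le.trans ?_
  rw [Fintype.card_piFinset, prod_const, card_univ, Fintype.card_fin]
  exact Nat.pow_le_pow_left (torsion_card n) k

lemma mem_roots {k n : ℕ} (hn : 0 < n) (x : Fin k → UnitAddCircle) : x ∈ roots n (n • x) := by
  refine mem_image.2 ⟨fun a => x a -
    (((AddCircle.equivIco 1 0 ((n • x) a) : ℝ) / n : ℝ) : UnitAddCircle), ?_, funext fun a => by simp⟩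
  refine Fintype.mem_piFinset.2 fun a => (mem_torsion hn _).2 ?_
  rw [smul_sub, ← AddCircle.coe_nsmul, nsmul_eq_mul, mul_div_cancel₀ _ (Nat.cast_ne_zero.2 hn.ne'),
    sub_eq_zero]
  exact ((AddCircle.equivIco 1 0).symm_apply_apply ((n • x) a)).symm

/-- Putting zero in front, as a homomorphism. -/
def consZero (k : ℕ) : (Fin k → UnitAddCircle) →+ (Fin (k + 1) → UnitAddCircle) where
  toFun x := Fin.cons 0 x
  map_zero' := funext fun i => by refine Fin.cases ?_ (fun j => ?_) i <;> simp
  map_add' x y := funext fun i => by refine Fin.cases ?_ (fun j => ?_) i <;> simp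

/-- The subgroups of small order. -/
noncomputable def smallSubs : (k d : ℕ) → Finset (AddSubgroup (Fin k → UnitAddCircle))
  | 0, _ => {⊥}
  | k + 1, d => (Finset.Icc 1 d).biUnion fun n =>
      ((smallSubs k (d / n)).filter fun H : AddSubgroup (Fin k → UnitAddCircle) =>
          Finite ↥H ∧ Nat.card ↥H ≤ d / n).biUnion fun H : AddSubgroup (Fin k → UnitAddCircle) =>
        if hH : Finite ↥H then
          (Set.toFinite (H : Set (Fin k → UnitAddCircle))).toFinset.biUnion fun t =>
            (roots n t).image fun x =>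
              AddSubgroup.closure (insert (Fin.cons (((1 : ℝ) / n : ℝ) : UnitAddCircle) x)
                ((H.map (consZero k) : AddSubgroup (Fin (k + 1) → UnitAddCircle)) : Set (Fin (k + 1) → UnitAddCircle)))
        else ∅

lemma smallSubs_card : ∀ k d : ℕ, 1 ≤ d → (smallSubs k d).card ≤ d ^ (2 * k) := by
  intro k
  induction k with
  | zero => intro d _; simp [smallSubs]
  | succ k ih =>
    intro d hd
    refine card_biUnion_le.trans ((sum_le_card_nsmul _ _ (d ^ (2 * k + 1)) fun n hn => ?_).trans ?_)
    · obtain ⟨hn1, hnd⟩ := mem_Icc.1 hn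
      have hdn : 1 ≤ d / n := (Nat.one_le_div_iff (by omega)).2 hnd
      refine card_biUnion_le.trans ((sum_le_card_nsmul _ _ (d / n * n ^ k) fun H hH => ?_).trans ?_)
      · obtain ⟨hfin, hcard⟩ := (mem_filter.1 hH).2
        rw [dif_pos hfin]
        refine card_biUnion_le.trans ((sum_le_card_nsmul _ _ (n ^ k) fun t _ =>
          card_image_le.trans (roots_card n t)).trans ?_)
        rw [smul_eq_mul]
        refine Nat.mul_le_mul_right _ ?_
        rw [← Nat.card_eq_card_finite_toFinset]
        exact hcard
      · rw [smul_eq_mul]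
        have hmul : d / n * n ≤ d := Nat.div_mul_le_self d n
        calc ((smallSubs k (d / n)).filter _).card * (d / n * n ^ k)
            ≤ (d / n) ^ (2 * k) * (d / n * n ^ k) :=
              Nat.mul_le_mul_right _ ((card_filter_le _ _).trans (ih _ hdn))
          _ = (d / n * n) ^ k * (d / n) ^ (k + 1) := by ring
          _ ≤ d ^ k * d ^ (k + 1) := Nat.mul_le_mul (Nat.pow_le_pow_left hmul k)
              (Nat.pow_le_pow_left (Nat.div_le_self d n) _)
          _ = d ^ (2 * k + 1) := by ring
    · rw [smul_eq_mul, Nat.card_Icc, Nat.add_sub_cancel, mul_comm, ← pow_succ]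
      exact le_of_eq (by ring_nf)

lemma mem_smallSubs : ∀ (k d : ℕ) (H : AddSubgroup (Fin k → UnitAddCircle)), Finite H → Nat.card H ≤ d →
    H ∈ smallSubs k d := by
  intro k
  induction k with
  | zero =>
    intro d H _ _
    refine mem_singleton.2 ((AddSubgroup.eq_bot_iff_forall _).2 fun x _ => ?_)
    exact Subsingleton.elim _ _
  | succ k ih =>
    intro d H hfin hcard
    set P := H.map (Pi.evalAddMonoidHom (fun _ : Fin (k + 1) => UnitAddCircle) 0) with hP
    set H' := H.comap (consZero k) with hH'
    have : Finite P := Finite.of_surjective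
      (fun h : H => (⟨h.1 0, h.1, h.2, rfl⟩ : P)) fun p => by
        obtain ⟨v, h, hh, rfl⟩ := p
        exact ⟨⟨h, hh⟩, rfl⟩
    have hinj : Function.Injective fun x : H' => (⟨consZero k x.1, x.2⟩ : H) := fun x y hxy =>
      Subtype.ext (funext fun a => by
        simpa [consZero] using congrFun (congrArg Subtype.val hxy) a.succ)
    have : Finite H' := Finite.of_injective _ hinj
    set n := Nat.card P with hn
    have hn1 : 0 < n := Nat.card_pos
    obtain ⟨h, hh, hh0⟩ := circle_subgroup P
    have hh0' : h 0 = (((1 : ℝ) / n : ℝ) : UnitAddCircle) := hh0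
    have hmul : n * Nat.card H' ≤ Nat.card H := by
      choose f hf using fun p : P => AddSubgroup.mem_map.1 p.2
      rw [hn, ← Nat.card_prod]
      refine Nat.card_le_card_of_injective
        (fun px : P × H' => (⟨f px.1 + consZero k px.2.1, add_mem (hf px.1).1 px.2.2⟩ : H))
        fun px qy hxy => ?_
      have h1 := congrArg Subtype.val hxy
      have h2 : px.1 = qy.1 := by
        refine Subtype.ext ?_
        have e := congrFun h1 0
        simpa [consZero, ← (hf px.1).2, ← (hf qy.1).2] using e
      refine Prod.ext h2 (Subtype.ext (funext fun a => ?_))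
      have e := congrFun h1 a.succ
      simpa [consZero, h2] using e
    have hH'card : Nat.card H' ≤ d / n :=
      (Nat.le_div_iff_mul_le hn1).2 (by rw [mul_comm]; omega)
    have hnd : n ≤ d := by nlinarith [Nat.card_pos (α := H'), hmul, hcard]
    have htail : n • (Fin.tail h) ∈ H' := by
      have e : consZero k (n • Fin.tail h) = n • h := by
        funext i
        refine Fin.cases ?_ (fun a => ?_) i
        · simp only [consZero, AddMonoidHom.coe_mk, ZeroHom.coe_mk, Fin.cons_zero, Pi.smul_apply,
            hh0']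
          rw [← AddCircle.coe_nsmul, nsmul_eq_mul, mul_one_div,
            div_self (Nat.cast_ne_zero.2 hn1.ne')]
          exact (AddCircle.coe_period 1).symm
        · simp [consZero, Fin.tail]
      show consZero k (n • Fin.tail h) ∈ H
      rw [e]
      exact nsmul_mem hh n
    have hfinH : Finite H' := inferInstance
    simp only [smallSubs, mem_biUnion, mem_Icc, mem_filter]
    refine ⟨n, ⟨hn1, hnd⟩, H', ⟨ih _ _ hfinH hH'card, hfinH, hH'card⟩, ?_⟩
    rw [dif_pos hfinH]
    refine mem_biUnion.2 ⟨_, (Set.Finite.mem_toFinset _).2 htail,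
      mem_image.2 ⟨Fin.tail h, mem_roots hn1 _, ?_⟩⟩
    have hcons : (Fin.cons (((1 : ℝ) / n : ℝ) : UnitAddCircle) (Fin.tail h) : Fin (k + 1) → UnitAddCircle) = h := by
      rw [← hh0', Fin.cons_self_tail]
    rw [hcons]
    refine le_antisymm ((AddSubgroup.closure_le _).2 ?_) fun x hx => ?_
    · rintro x (rfl | ⟨y, hy, rfl⟩)
      · exact hh
      · exact hy
    · have hx0 : x 0 ∈ P := AddSubgroup.mem_map.2 ⟨x, hx, rfl⟩
      have hmem : n • x 0 = 0 := congrArg Subtype.val
        (card_nsmul_eq_zero' (x := (⟨x 0, hx0⟩ : P)))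
      obtain ⟨i, -, hi⟩ := (AddCircle.nsmul_eq_zero_iff hn1).1 hmem
      have hd0 : (x - i • h) 0 = 0 := by
        rw [Pi.sub_apply, Pi.smul_apply, hh0', ← hi, ← AddCircle.coe_nsmul, nsmul_eq_mul,
          mul_one_div, mul_one, sub_self]
      have hrest : consZero k (Fin.tail (x - i • h)) = x - i • h := by
        funext l
        refine Fin.cases ?_ (fun a => ?_) l
        · simp [consZero, hd0]
        · simp [consZero, Fin.tail]
      rw [← sub_add_cancel x (i • h)]
      refine add_mem (AddSubgroup.subset_closure (Set.mem_insert_of_mem _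
        ⟨Fin.tail (x - i • h), ?_, hrest⟩))
        (nsmul_mem (AddSubgroup.subset_closure (Set.mem_insert _ _)) i)
      show consZero k _ ∈ H
      rw [hrest]
      exact sub_mem hx (nsmul_mem hh i)

end Vale.Agent.P160R.Fam
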