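import Mathlib

/-!
# A few random tests detect every class that has no multiple near the integers
-/

namespace Vale.Agent.P160R.Fam

open Finset

variable {ι : Type} [Fintype ι] [DecidableEq ι]

/-- A sum of signed unit vectors. -/
def randVec {s : ℕ} (σ : Fin s → ι × Bool) : ι → ℤ :=
  ∑ t, Pi.single (σ t).1 (if (σ t).2 then 1 else -1)

/-- The distance to the nearest integer. -/
noncomputable def dev (u : ℝ) : ℝ := |u - round u|

/-- The squared distance to the integer points. -/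
noncomputable def dev2 (x : ι → ℝ) : ℝ := ∑ i, dev (x i) ^ 2

lemma dev_le (u : ℝ) (k : ℤ) : dev u ≤ |u - k| := round_le u k

lemma cos_two_pi_dev (u : ℝ) : Real.cos (2 * Real.pi * dev u) = Real.cos (2 * Real.pi * u) := by
  have h : Real.cos (2 * Real.pi * (u - round u)) = Real.cos (2 * Real.pi * u) := by
    rw [mul_sub, mul_comm (2 * Real.pi) (round u : ℝ), Real.cos_sub_int_mul_two_pi]
  rw [← h, ← Real.cos_abs (2 * Real.pi * (u - round u)), abs_mul,
    abs_of_pos Real.two_pi_pos]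
  rfl

lemma cos_le_dev (u : ℝ) : Real.cos (2 * Real.pi * u) ≤ 1 - 8 * dev u ^ 2 := by
  rw [← cos_two_pi_dev]
  have h0 : 0 ≤ dev u := abs_nonneg _
  have h1 : dev u ≤ 1 / 2 := abs_sub_round u
  have hpi := Real.pi_pos
  refine (Real.cos_le_one_sub_mul_cos_sq ?_).trans_eq ?_
  · rw [abs_of_nonneg (by positivity)]
    nlinarith
  · field_simp
    ring

lemma cos_pow_ge {n : ℕ} (u : ℝ) (h : 20 * (n : ℝ) * dev u ^ 2 ≤ 1) :
    1 / 2 ≤ Real.cos (Real.pi * u) ^ (2 * n) := by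
  have hsq : Real.cos (Real.pi * u) ^ 2 = Real.cos (Real.pi * dev u) ^ 2 := by
    rw [Real.cos_sq, Real.cos_sq, ← mul_assoc, ← mul_assoc, cos_two_pi_dev]
  rw [pow_mul, hsq]
  rcases Nat.eq_zero_or_pos n with rfl | hn
  · norm_num
  have hn' : (1 : ℝ) ≤ n := Nat.one_le_cast.2 hn
  have hc : 1 - (Real.pi * dev u) ^ 2 ≤ Real.cos (Real.pi * dev u) ^ 2 := by
    have := Real.one_sub_sq_div_two_le_cos (x := Real.pi * dev u)
    rcases le_or_gt ((Real.pi * dev u) ^ 2) 1 with h1 | h1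
    · nlinarith [sq_nonneg ((Real.pi * dev u) ^ 2)]
    · nlinarith [sq_nonneg (Real.cos (Real.pi * dev u))]
  have hx : (n : ℝ) * (Real.pi * dev u) ^ 2 ≤ 1 / 2 := by
    have : Real.pi ^ 2 ≤ 10 := by nlinarith [Real.pi_lt_d2, Real.pi_pos]
    rw [mul_pow]
    nlinarith [mul_le_mul_of_nonneg_left this (mul_nonneg (by positivity : (0 : ℝ) ≤ n)
      (sq_nonneg (dev u)))]
  have h0 : 0 ≤ 1 - (Real.pi * dev u) ^ 2 := by nlinarith [sq_nonneg (Real.pi * dev u)]
  refine le_trans ?_ (pow_le_pow_left₀ h0 hc n)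
  have := one_add_mul_le_pow (a := -(Real.pi * dev u) ^ 2) (by linarith) n
  rw [← sub_eq_add_neg] at this
  linarith

lemma central_sq (n : ℕ) : Nat.centralBinom n ^ 2 * (2 * n + 1) ≤ 16 ^ n := by
  induction n with
  | zero => simp
  | succ n ih =>
    have h := Nat.succ_mul_centralBinom_succ n
    refine Nat.le_of_mul_le_mul_left ?_ (pow_pos (Nat.succ_pos n) 2)
    calc (n + 1) ^ 2 * (Nat.centralBinom (n + 1) ^ 2 * (2 * (n + 1) + 1))
        = ((n + 1) * Nat.centralBinom (n + 1)) ^ 2 * (2 * n + 3) := by ring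
      _ = 4 * ((2 * n + 1) * (2 * n + 3)) * (Nat.centralBinom n ^ 2 * (2 * n + 1)) := by rw [h]; ring
      _ ≤ 4 * (4 * (n + 1) ^ 2) * 16 ^ n := Nat.mul_le_mul (by nlinarith) ih
      _ = (n + 1) ^ 2 * 16 ^ (n + 1) := by ring

/-- Positive Fourier coefficients of the test function. -/
lemma cos_pow_expand (n : ℕ) (u : ℝ) :
    Real.cos (Real.pi * u) ^ (2 * n) = ∑ j ∈ range (2 * n + 1),
      ((2 * n).choose j : ℝ) / 4 ^ n * Real.cos (2 * Real.pi * ((j : ℝ) - n) * u) := by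
  have e : (Complex.cos ((Real.pi * u : ℝ) : ℂ)) ^ (2 * n) = ∑ j ∈ range (2 * n + 1),
      ((((2 * n).choose j : ℝ) / 4 ^ n : ℝ) : ℂ) *
        Complex.exp (((2 * Real.pi * ((j : ℝ) - n) * u : ℝ) : ℂ) * Complex.I) := by
    rw [Complex.cos, div_pow, add_pow, Finset.sum_div]
    refine sum_congr rfl fun j hj => ?_
    have hj' : j ≤ 2 * n := Nat.lt_succ_iff.1 (mem_range.1 hj)
    rw [← Complex.exp_nat_mul, ← Complex.exp_nat_mul, ← Complex.exp_add,
      show (2 : ℂ) ^ (2 * n) = 4 ^ n by rw [pow_mul]; norm_num]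
    have ee : ((j : ℕ) : ℂ) * (((Real.pi * u : ℝ) : ℂ) * Complex.I) +
        ((2 * n - j : ℕ) : ℂ) * (-((Real.pi * u : ℝ) : ℂ) * Complex.I) =
        ((2 * Real.pi * ((j : ℝ) - n) * u : ℝ) : ℂ) * Complex.I := by
      rw [Nat.cast_sub hj']
      push_cast
      ring
    rw [ee]
    push_cast
    ring
  have := congrArg Complex.re e
  rw [← Complex.ofReal_cos, ← Complex.ofReal_pow, Complex.ofReal_re, Complex.re_sum] at this
  rw [this]
  refine sum_congr rfl fun j _ => ?_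
  rw [Complex.re_ofReal_mul, Complex.exp_ofReal_mul_I_re]

lemma dot_randVec {s : ℕ} (σ : Fin s → ι × Bool) (x : ι → ℝ) :
    ∑ i, (randVec σ i : ℝ) * x i =
      ∑ t, (if (σ t).2 then 1 else -1) * x (σ t).1 := by
  simp only [randVec, Finset.sum_apply, Int.cast_sum, Finset.sum_mul]
  rw [Finset.sum_comm]
  refine sum_congr rfl fun t _ => ?_
  simp [Pi.single_apply]

/-- The characteristic function of a random test. -/
lemma sum_cos (s : ℕ) (x : ι → ℝ) (θ : ℝ) :
    ∑ σ : Fin s → ι × Bool, Real.cos (θ * ∑ i, (randVec σ i : ℝ) * x i) =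
      (2 * ∑ i, Real.cos (θ * x i)) ^ s := by
  set f : ι × Bool → ℂ := fun p =>
    Complex.exp (((θ * ((if p.2 then 1 else -1) * x p.1) : ℝ) : ℂ) * Complex.I) with hf
  have h1 : ∑ p, f p = ((2 * ∑ i, Real.cos (θ * x i) : ℝ) : ℂ) := by
    rw [Fintype.sum_prod_type, Complex.ofReal_mul, Complex.ofReal_sum, mul_sum]
    refine sum_congr rfl fun i _ => ?_
    rw [Fintype.sum_bool, Complex.ofReal_cos, Complex.ofReal_ofNat, Complex.two_cos]
    simp [hf]
  have h2 : (((2 * ∑ i, Real.cos (θ * x i)) ^ s : ℝ) : ℂ) = ∑ σ : Fin s → ι × Bool,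
      Complex.exp (((θ * ∑ i, (randVec σ i : ℝ) * x i : ℝ) : ℂ) * Complex.I) := by
    rw [Complex.ofReal_pow, ← h1, Fintype.sum_pow]
    refine sum_congr rfl fun σ _ => ?_
    rw [hf, ← Complex.exp_sum, dot_randVec]
    congr 1
    push_cast
    rw [mul_sum, sum_mul]
  have := congrArg Complex.re h2
  rw [Complex.ofReal_re, Complex.re_sum] at this
  simp only [Complex.exp_ofReal_mul_I_re] at this
  exact this.symm

/-- A class with no multiple near the integers has small characteristic function. -/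
lemma avg_cos_le [Nonempty ι] (s : ℕ) (x : ι → ℝ) (θ Θ : ℝ) (t : ℝ) (hθ : θ = 2 * Real.pi * t)
    (hΘ : Θ ≤ dev2 fun i => 2 * t * x i) :
    |(2 * ∑ i, Real.cos (θ * x i)) ^ s| ≤
      (2 * (Fintype.card ι : ℝ)) ^ s * Real.exp (-(2 * s * Θ / Fintype.card ι)) := by
  subst hθ
  set m := (Fintype.card ι : ℝ) with hm
  have hm0 : 0 < m := Nat.cast_pos.2 Fintype.card_pos
  set S := ∑ i, Real.cos (2 * Real.pi * t * x i) with hS
  have h1 : S ^ 2 ≤ m * (m - 4 * Θ) := by
    have hcs := sq_sum_le_card_mul_sum_sq (s := (univ : Finset ι))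
      (f := fun i => Real.cos (2 * Real.pi * t * x i))
    rw [card_univ] at hcs
    refine hcs.trans (mul_le_mul_of_nonneg_left ?_ hm0.le)
    calc ∑ i, Real.cos (2 * Real.pi * t * x i) ^ 2 ≤ ∑ i, (1 - 4 * dev (2 * t * x i) ^ 2) := by
          refine sum_le_sum fun i _ => ?_
          rw [Real.cos_sq]
          have := cos_le_dev (2 * t * x i)
          rw [show 2 * (2 * Real.pi * t * x i) = 2 * Real.pi * (2 * t * x i) by ring]
          linarith
      _ = m - 4 * dev2 (fun i => 2 * t * x i) := by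
          rw [sum_sub_distrib, ← mul_sum, sum_const, card_univ, nsmul_eq_mul, mul_one]; rfl
      _ ≤ _ := by linarith
  have h2 : |S| ≤ m * Real.exp (-(2 * Θ / m)) := by
    refine abs_le_of_sq_le_sq ?_ (by positivity)
    rw [mul_pow, ← Real.exp_nat_mul]
    refine h1.trans ?_
    have := Real.add_one_le_exp ((2 : ℕ) * -(2 * Θ / m))
    rw [pow_two, mul_assoc]
    refine mul_le_mul_of_nonneg_left ?_ hm0.le
    refine le_trans (le_of_eq ?_) (mul_le_mul_of_nonneg_left this hm0.le)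
    field_simp
    push_cast
    ring
  rw [abs_pow, abs_mul, abs_two, show -(2 * (s : ℝ) * Θ / m) = (s : ℝ) * -(2 * Θ / m) by ring,
    Real.exp_nat_mul, ← mul_pow]
  exact pow_le_pow_left₀ (by positivity) (by linarith) s

lemma sum_test_le [Nonempty ι] {s n : ℕ} (x : ι → ℝ) {Θ θ : ℝ} (hθ0 : 0 ≤ θ)
    (hn : 1 ≤ θ ^ 2 * (2 * n + 1)) (hs : Real.exp (-(2 * s * Θ / Fintype.card ι)) ≤ θ)
    (hx : ∀ t : ℕ, 1 ≤ t → t ≤ n → Θ ≤ dev2 fun i => 2 * (t : ℝ) * x i) :
    ∑ σ : Fin s → ι × Bool, Real.cos (Real.pi * ∑ i, (randVec σ i : ℝ) * x i) ^ (2 * n) ≤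
      2 * θ * (2 * (Fintype.card ι : ℝ)) ^ s := by
  set N := (2 * (Fintype.card ι : ℝ)) ^ s with hN
  have hN0 : 0 ≤ N := by positivity
  simp only [cos_pow_expand]
  rw [sum_comm]
  have hb : ∀ j ∈ range (2 * n + 1), ((2 * n).choose j : ℝ) / 4 ^ n *
      |∑ σ : Fin s → ι × Bool,
        Real.cos (2 * Real.pi * ((j : ℝ) - n) * ∑ i, (randVec σ i : ℝ) * x i)| ≤
      N * θ * (((2 * n).choose j : ℝ) / 4 ^ n) +
        (if j = n then N * (((2 * n).choose j : ℝ) / 4 ^ n) else 0) := by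
    intro j hj
    have hc : 0 ≤ ((2 * n).choose j : ℝ) / 4 ^ n := by positivity
    rw [sum_cos]
    split_ifs with h
    · subst h
      have e : |(2 * ∑ i, Real.cos (2 * Real.pi * ((j : ℝ) - j) * x i)) ^ s| = N := by
        simp [hN]
      rw [e]
      nlinarith [mul_nonneg (mul_nonneg hN0 hθ0) hc]
    · rw [add_zero, mul_comm (N * θ)]
      refine mul_le_mul_of_nonneg_left ?_ hc
      have hj' := mem_range.1 hj
      obtain ⟨t, ht1, ht2, ht⟩ : ∃ t : ℕ, 1 ≤ t ∧ t ≤ n ∧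
          ((j : ℝ) - n = t ∨ (j : ℝ) - n = -(t : ℝ)) := by
        rcases lt_or_gt_of_ne h with h' | h'
        · exact ⟨n - j, by omega, by omega, Or.inr (by rw [Nat.cast_sub h'.le]; ring)⟩
        · exact ⟨j - n, by omega, by omega, Or.inl (by rw [Nat.cast_sub h'.le])⟩
      have e : ∀ i, Real.cos (2 * Real.pi * ((j : ℝ) - n) * x i) =
          Real.cos (2 * Real.pi * t * x i) := fun i => by
        rcases ht with ht | ht
        · rw [ht]
        · rw [ht, ← Real.cos_neg]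
          ring_nf
      simp only [e]
      refine (avg_cos_le s x (2 * Real.pi * t) Θ t rfl (hx t ht1 ht2)).trans ?_
      exact mul_le_mul_of_nonneg_left hs hN0
  refine (sum_le_sum fun j hj => ?_).trans (le_trans (sum_le_sum hb) ?_)
  · rw [← mul_sum]
    exact mul_le_mul_of_nonneg_left (le_abs_self _) (by positivity)
  · rw [sum_add_distrib, ← mul_sum, ← sum_div, sum_ite_eq' _ n, if_pos (mem_range.2 (by omega)),
      ← Nat.cast_sum, Nat.sum_range_choose, pow_mul]
    push_cast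
    norm_num
    have hc : ((2 * n).choose n : ℝ) / 4 ^ n ≤ θ := by
      have h := (Nat.cast_le (α := ℝ)).2 (central_sq n)
      rw [Nat.centralBinom_eq_two_mul_choose] at h
      push_cast at h
      rw [div_le_iff₀ (by positivity)]
      refine (pow_le_pow_iff_left₀ (by positivity) (by positivity) two_ne_zero).1 ?_
      rw [mul_pow, ← pow_mul, mul_comm n 2, pow_mul]
      norm_num
      have h16 : (0 : ℝ) ≤ 16 ^ n := by positivity
      nlinarith [mul_le_mul_of_nonneg_right hn h16, mul_le_mul_of_nonneg_left h (sq_nonneg θ),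
        sq_nonneg ((2 * n).choose n : ℝ)]
    nlinarith [mul_le_mul_of_nonneg_left hc hN0]

/-- Some choice of tests fails on none of finitely many spread classes. -/
lemma exists_tests [Nonempty ι] {s n k R : ℕ} (X : Finset (ι → ℝ)) {Θ θ : ℝ} (hθ0 : 0 < θ)
    (hθ1 : θ ≤ 1) (hn : 1 ≤ θ ^ 2 * (2 * n + 1)) (hn0 : 1 ≤ n)
    (hs : Real.exp (-(2 * s * Θ / Fintype.card ι)) ≤ θ) (hR : 40 * n * R ≤ k)
    (hX : ∀ x ∈ X, ∀ t : ℕ, 1 ≤ t → t ≤ n → Θ ≤ dev2 fun i => 2 * (t : ℝ) * x i)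
    (hsmall : (X.card : ℝ) * (5 ^ k * θ ^ (k - k / 2)) < 1) :
    ∃ σ : Fin k → Fin s → ι × Bool, ∀ x ∈ X,
      ¬ ∑ l, dev (∑ i, (randVec (σ l) i : ℝ) * x i) ^ 2 ≤ R := by
  classical
  by_contra hno
  push Not at hno
  set N := (2 * (Fintype.card ι : ℝ)) ^ s with hN
  set g : (ι → ℝ) → (Fin s → ι × Bool) → ℝ :=
    fun x z => θ + 2 * Real.cos (Real.pi * ∑ i, (randVec z i : ℝ) * x i) ^ (2 * n) with hg
  have hgnn : ∀ x z, θ ≤ g x z := fun x z => by
    have : 0 ≤ Real.cos (Real.pi * ∑ i, (randVec z i : ℝ) * x i) ^ (2 * n) :=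
      (even_two_mul n).pow_nonneg _
    simp only [hg]; linarith
  have hlow : ∀ (σ : Fin k → Fin s → ι × Bool) (x : ι → ℝ),
      ∑ l, dev (∑ i, (randVec (σ l) i : ℝ) * x i) ^ 2 ≤ R → θ ^ (k / 2) ≤ ∏ l, g x (σ l) := by
    intro σ x h
    set bad := univ.filter fun l => 1 < 20 * (n : ℝ) * dev (∑ i, (randVec (σ l) i : ℝ) * x i) ^ 2
    have hbad : bad.card ≤ k / 2 := by
      have h1 : (bad.card : ℝ) ≤ 20 * n * R :=
        calc (bad.card : ℝ) = ∑ l ∈ bad, (1 : ℝ) := by simp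
          _ ≤ ∑ l ∈ bad, 20 * (n : ℝ) * dev (∑ i, (randVec (σ l) i : ℝ) * x i) ^ 2 :=
            sum_le_sum fun l hl => (mem_filter.1 hl).2.le
          _ ≤ ∑ l, 20 * (n : ℝ) * dev (∑ i, (randVec (σ l) i : ℝ) * x i) ^ 2 :=
            sum_le_sum_of_subset_of_nonneg (subset_univ _) fun l _ _ => by positivity
          _ ≤ _ := by rw [← mul_sum]; exact mul_le_mul_of_nonneg_left h (by positivity)
      have h2 : bad.card ≤ 20 * n * R := by exact_mod_cast h1
      rw [Nat.le_div_iff_mul_le two_pos]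
      nlinarith
    calc θ ^ (k / 2) ≤ θ ^ bad.card := pow_le_pow_of_le_one hθ0.le hθ1 hbad
      _ = ∏ l, if l ∈ bad then θ else 1 := by
          rw [prod_ite, prod_const_one, mul_one, prod_const, filter_mem_eq_inter, univ_inter]
      _ ≤ ∏ l, g x (σ l) := by
          refine prod_le_prod (fun l _ => by split_ifs <;> linarith) fun l _ => ?_
          split_ifs with hl
          · exact hgnn x _
          · have hl' : 20 * (n : ℝ) * dev (∑ i, (randVec (σ l) i : ℝ) * x i) ^ 2 ≤ 1 := by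
              simpa [bad] using hl
            have := cos_pow_ge _ hl'
            simp only [hg]; linarith
  have hsum : ∀ x ∈ X, ∑ σ : Fin k → Fin s → ι × Bool, ∏ l, g x (σ l) ≤ (5 * θ * N) ^ k := by
    intro x hx
    rw [← Fintype.sum_pow]
    refine pow_le_pow_left₀ (sum_nonneg fun z _ => hθ0.le.trans (hgnn x z)) ?_ k
    have := sum_test_le (s := s) x hθ0.le hn hs (hX x hx)
    simp only [hg, sum_add_distrib, ← mul_sum, sum_const, card_univ, Fintype.card_fun,
      Fintype.card_prod, Fintype.card_fin, Fintype.card_bool, nsmul_eq_mul]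
    push_cast
    rw [mul_comm (Fintype.card ι : ℝ) 2]
    linarith
  have htot : N ^ k * θ ^ (k / 2) ≤ (X.card : ℝ) * (5 * θ * N) ^ k := by
    calc N ^ k * θ ^ (k / 2) = ∑ _σ : Fin k → Fin s → ι × Bool, θ ^ (k / 2) := by
          simp [hN, mul_comm]
      _ ≤ ∑ σ : Fin k → Fin s → ι × Bool, ∑ x ∈ X, ∏ l, g x (σ l) := by
          refine sum_le_sum fun σ _ => ?_
          obtain ⟨x, hx, hle⟩ := hno σ
          exact (hlow σ x hle).trans (single_le_sum (f := fun x => ∏ l, g x (σ l))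
            (fun y _ => prod_nonneg fun l _ => hθ0.le.trans (hgnn y _)) hx)
      _ ≤ _ := by
          rw [sum_comm, ← nsmul_eq_mul]
          exact sum_le_card_nsmul _ _ _ hsum
  have hN0 : 0 < N ^ k := by positivity
  have hpos : 0 < θ ^ (k / 2) := pow_pos hθ0 _
  have e : (5 * θ * N) ^ k = (5 ^ k * θ ^ (k - k / 2)) * (N ^ k * θ ^ (k / 2)) := by
    have hk : θ ^ k = θ ^ (k - k / 2) * θ ^ (k / 2) := by
      rw [← pow_add]; congr 1; omega
    rw [mul_pow, mul_pow, hk]; ring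
  rw [e, ← mul_assoc] at htot
  nlinarith [mul_lt_mul_of_pos_right hsmall (mul_pos hN0 hpos)]

end Vale.Agent.P160R.Fam
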