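import Vale.Agent.P160R.Family.Ball
import Vale.Agent.P160R.Family.Subgroups
import Vale.Agent.P160R.Family.Greedy
import Vale.Agent.P160R.Family.Regular
import Vale.Agent.P160R.Family.Tests

/-!
# The data that encode a regular lattice
-/

namespace Vale.Agent.P160R.Fam

open Finset Matrix

variable {ι : Type} [Fintype ι] [DecidableEq ι] {κ : Type} [Fintype κ] [DecidableEq κ] {r : ℕ}

/-- An integer vector read over the reals. -/
def castVec (z : ι → ℤ) : ι → ℝ := fun a => (z a : ℝ)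

/-- A real vector modulo one. -/
noncomputable def cls (x : ι → ℝ) : ι → UnitAddCircle := fun a => (x a : UnitAddCircle)

omit [Fintype ι] [DecidableEq ι] in
lemma dev_add_int (u : ℝ) (k : ℤ) : dev (u + k) = dev u := by
  rw [dev, dev, round_add_intCast]
  congr 1
  push_cast
  ring

lemma glue_eq (Z : Matrix ι (Fin r) ℤ) (z : ι → ℤ) : glue Z z = cls (proj Z *ᵥ castVec z) := rfl

lemma castVec_single (i : ι) : castVec (Pi.single i (1 : ℤ)) = Pi.single i (1 : ℝ) := by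
  funext a
  rcases eq_or_ne a i with rfl | h
  · simp [castVec]
  · simp [castVec, h]

/-- Classes all of whose small multiples are far from the integers. -/
def Spread (n : ℕ) (Θ : ℝ) (x : ι → ℝ) : Prop :=
  ∀ t : ℕ, 1 ≤ t → t ≤ n → Θ ≤ dev2 fun i => 2 * (t : ℝ) * x i

/-- A set of tests applied to a class. -/
noncomputable def applyTests (z : κ → ι → ℤ) : (ι → UnitAddCircle) →+ (κ → UnitAddCircle) where
  toFun g a := ∑ l, z a l • g l
  map_zero' := funext fun a => by simp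
  map_add' g h := funext fun a => by simp [Finset.sum_add_distrib]

lemma applyTests_cls (z : κ → ι → ℤ) (x : ι → ℝ) :
    applyTests z (cls x) = cls fun a => ∑ l, (z a l : ℝ) * x l := by
  funext a
  show ∑ l, z a l • ((x l : ℝ) : UnitAddCircle) = ((∑ l, (z a l : ℝ) * x l : ℝ) : UnitAddCircle)
  simp only [← AddCircle.coe_zsmul, zsmul_eq_mul]
  exact (map_sum (QuotientAddGroup.mk' (AddSubgroup.zmultiples (1 : ℝ))) _ _).symm

/-- The entries of the projection along the tests. -/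
noncomputable def ys (Z : Matrix ι (Fin r) ℤ) (z : κ → ι → ℤ) : ι → κ → ℝ :=
  fun i a => (proj Z *ᵥ castVec (z a)) i

lemma proj_apply_comm (Z : Matrix ι (Fin r) ℤ) (i l : ι) : proj Z i l = proj Z l i := by
  conv_lhs => rw [← proj_symm Z]
  rfl

lemma cls_ys (Z : Matrix ι (Fin r) ℤ) (z : κ → ι → ℤ) (i : ι) :
    cls (ys Z z i) = applyTests z (glue Z (Pi.single i 1)) := by
  rw [glue_eq, applyTests_cls, castVec_single, mulVec_single_one]
  congr 1
  funext a
  simp only [ys, mulVec, dotProduct, castVec, Matrix.col_apply]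
  exact sum_congr rfl fun l _ => by rw [proj_apply_comm Z i l]; ring

lemma proj_norm_split {Z : Matrix ι (Fin r) ℤ} (hZ : (Zᵀ * Z).det ≠ 0) (v : ι → ℝ) :
    (∑ i, (proj Z *ᵥ v) i ^ 2) + ∑ i, ((1 - proj Z) *ᵥ v) i ^ 2 = ∑ i, v i ^ 2 := by
  have h : (proj Z *ᵥ v) ⬝ᵥ (proj Z *ᵥ v) = v ⬝ᵥ (proj Z *ᵥ v) := by
    conv_lhs => rw [dotProduct_mulVec, ← mulVec_transpose, proj_symm, mulVec_mulVec, proj_idem hZ,
      dotProduct_comm]
  simp only [sub_mulVec, one_mulVec, Pi.sub_apply, sub_sq, sum_add_distrib, sum_sub_distrib]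
  simp only [dotProduct, ← sq] at h
  have e : ∑ i, 2 * v i * (proj Z *ᵥ v) i = 2 * ∑ i, v i * (proj Z *ᵥ v) i := by
    rw [mul_sum]; exact sum_congr rfl fun i _ => by ring
  rw [e]
  linarith

lemma proj_norm_le {Z : Matrix ι (Fin r) ℤ} (hZ : (Zᵀ * Z).det ≠ 0) (v : ι → ℝ) :
    ∑ i, (proj Z *ᵥ v) i ^ 2 ≤ ∑ i, v i ^ 2 := by
  rw [← proj_norm_split hZ v]
  exact le_add_of_nonneg_right (sum_nonneg fun i _ => sq_nonneg _)

lemma proj_row_sq {Z : Matrix ι (Fin r) ℤ} (hZ : (Zᵀ * Z).det ≠ 0) (i : ι) :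
    ∑ l, proj Z i l ^ 2 ≤ 1 := by
  have h := proj_norm_le hZ (Pi.single i (1 : ℝ))
  simp only [mulVec_single_one, Matrix.col_apply] at h
  refine le_trans (le_of_eq (sum_congr rfl fun l _ => by rw [proj_apply_comm Z i l])) (h.trans ?_)
  simp [Pi.single_apply]

lemma randVec_sq {s : ℕ} (σ : Fin s → ι × Bool) : ∑ i, (randVec σ i : ℝ) ^ 2 ≤ (s : ℝ) ^ 2 := by
  refine (sum_le_sum fun i _ => (sq_abs _).ge).trans
    ((sum_sq_le_sq_sum_of_nonneg fun i _ => abs_nonneg _).trans ?_)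
  refine pow_le_pow_left₀ (sum_nonneg fun i _ => abs_nonneg _) ?_ 2
  calc ∑ i, |(randVec σ i : ℝ)|
      ≤ ∑ i, ∑ t, |((Pi.single (σ t).1 (if (σ t).2 then 1 else -1) : ι → ℤ) i : ℝ)| := by
        refine sum_le_sum fun i _ => ?_
        simp only [randVec, Finset.sum_apply, Int.cast_sum]
        exact abs_sum_le_sum_abs _ _
    _ = ∑ t, ∑ i, |((Pi.single (σ t).1 (if (σ t).2 then 1 else -1) : ι → ℤ) i : ℝ)| := sum_comm
    _ = ∑ _t : Fin s, (1 : ℝ) := sum_congr rfl fun t _ => by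
        rw [sum_eq_single (σ t).1 (fun i _ hi => by simp [hi]) (by simp)]
        rcases (σ t).2 <;> simp
    _ = _ := by simp

lemma testVec_sq {t u : ℕ} (w : Fin t → ι × Fin (u + 1)) :
    ∑ i, (testVec w i : ℝ) ^ 2 ≤ ((t : ℝ) * u) ^ 2 := by
  refine (sum_le_sum fun i _ => (sq_abs _).ge).trans
    ((sum_sq_le_sq_sum_of_nonneg fun i _ => abs_nonneg _).trans ?_)
  refine pow_le_pow_left₀ (sum_nonneg fun i _ => abs_nonneg _) ?_ 2
  calc ∑ i, |(testVec w i : ℝ)|
      ≤ ∑ i, ∑ l, |((Pi.single (w l).1 ((w l).2.val : ℤ) : ι → ℤ) i : ℝ)| := by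
        refine sum_le_sum fun i _ => ?_
        simp only [testVec, Finset.sum_apply, Int.cast_sum]
        exact abs_sum_le_sum_abs _ _
    _ = ∑ l, ∑ i, |((Pi.single (w l).1 ((w l).2.val : ℤ) : ι → ℤ) i : ℝ)| := sum_comm
    _ ≤ ∑ _l : Fin t, (u : ℝ) := sum_le_sum fun l _ => by
        rw [sum_eq_single (w l).1 (fun i _ hi => by simp [hi]) (by simp)]
        simp only [Pi.single_eq_same, Int.cast_natCast, Nat.abs_cast, Nat.cast_le]
        exact Nat.lt_succ_iff.1 (w l).2.isLt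
    _ = _ := by simp

/-- The numerical parameters. -/
structure Params where
  A : ℕ
  D : ℕ
  e : ℕ

/-- The height of the test vectors. -/
def Params.u (P : Params) : ℕ := 2 ^ P.e
/-- The length of a random test. -/
def Params.s (P : Params) : ℕ := P.u ^ 4
/-- The largest multiple that is inspected. -/
def Params.n (P : Params) : ℕ := P.u ^ 2
/-- The number of random tests. -/
def Params.k0 (P : Params) (m : ℕ) : ℕ := 4 * P.A * m / P.e + 1
/-- The number of greedy tests. -/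
def Params.k1 (P : Params) (m : ℕ) : ℕ := P.A * m / P.e
/-- The rejection radius. -/
def Params.R (P : Params) (m : ℕ) : ℕ := P.k0 m / (40 * P.n)
/-- The bound on the total radius. -/
def Params.T (P : Params) (m : ℕ) : ℕ :=
  P.k0 m * P.s ^ 2 + P.k1 m * ((P.e + 1) * P.u) ^ 2 + 2 * m
/-- The squared distance below which a class counts as near the integers. -/
noncomputable def Params.Θ (P : Params) (m : ℕ) : ℝ := (P.e + 1 : ℝ) * m / P.s

/-- A regular lattice of small determinant. -/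
def Params.Reg (P : Params) (Z : Matrix ι (Fin r) ℤ) : Prop :=
  (Zᵀ * Z).det ≠ 0 ∧ (Zᵀ * Z).det.natAbs ≤ 2 ^ (P.A * Fintype.card ι) ∧
    Sparse (proj Z) P.D ∧ Sparse (1 - proj Z) P.D

/-- The codes. -/
structure Code (P : Params) (ι : Type) [Fintype ι] where
  σ : Fin (P.k0 (Fintype.card ι)) → Fin P.s → ι × Bool
  w : Fin (P.k1 (Fintype.card ι)) → Fin (P.e + 1) → ι × Fin (P.u + 1)
  q : Fin (P.u + 1)
  img : AddSubgroup (Fin (P.k0 (Fintype.card ι) + P.k1 (Fintype.card ι)) → UnitAddCircle)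
  r0 : ι → Fin (P.T (Fintype.card ι) + 1)
  r1 : ι → Fin (P.T (Fintype.card ι) + 1)

variable {P : Params}

/-- All the tests of a code. -/
def Code.tests (c : Code P ι) : Fin (P.k0 (Fintype.card ι) + P.k1 (Fintype.card ι)) → ι → ℤ :=
  Fin.append (fun l => randVec (c.σ l)) (fun l => testVec (c.w l))

/-- A lattice is described by a code. -/
structure Fits (c : Code P ι) (Z : Matrix ι (Fin r) ℤ) : Prop where
  pos : 0 < c.q.val
  mem : ∀ i, c.q.val • glue Z (Pi.single i 1) ∈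
    AddSubgroup.closure (Set.range fun a => glue Z (c.tests a))
  img : c.img = (glue Z).range.map (applyTests c.tests)
  fail : ∀ z : ι → ℤ, Spread P.n (P.Θ (Fintype.card ι)) (proj Z *ᵥ castVec z) →
    (P.R (Fintype.card ι) : ℝ) <
      ∑ l, dev (∑ i, (randVec (c.σ l) i : ℝ) * (proj Z *ᵥ castVec z) i) ^ 2
  r0 : ∀ i, (c.r0 i : ℕ) = ⌈∑ l, ys Z c.tests i (Fin.castAdd _ l) ^ 2⌉₊
  r1 : ∀ i, (c.r1 i : ℕ) = ⌈∑ l, ys Z c.tests i (Fin.natAdd _ l) ^ 2⌉₊

lemma sum_norms {Z : Matrix ι (Fin r) ℤ} (hZ : (Zᵀ * Z).det ≠ 0) {γ : Type} [Fintype γ]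
    (z : γ → ι → ℤ) (b : ℕ) (hb : ∀ a, ∑ i, (z a i : ℝ) ^ 2 ≤ b) :
    ∑ i, ∑ a, (proj Z *ᵥ castVec (z a)) i ^ 2 ≤ (Fintype.card γ * b : ℕ) := by
  rw [sum_comm]
  refine (sum_le_sum fun a _ => (proj_norm_le hZ _).trans (hb a)).trans (le_of_eq ?_)
  simp

lemma sum_ceil {γ : Type} [Fintype γ] (f : γ → ℝ) (hf : ∀ i, 0 ≤ f i) (B : ℕ)
    (h : ∑ i, f i ≤ B) : ∑ i, ⌈f i⌉₊ ≤ B + Fintype.card γ := by
  have e : ((∑ i, ⌈f i⌉₊ : ℕ) : ℝ) ≤ ((B + Fintype.card γ : ℕ) : ℝ) := by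
    push_cast
    refine (sum_le_sum fun i _ => (Nat.ceil_lt_add_one (hf i)).le).trans ?_
    rw [sum_add_distrib, sum_const, card_univ, nsmul_one]
    linarith
  exact_mod_cast e

/-- The first radii have small total. -/
lemma sum_r0 (σ : Fin (P.k0 (Fintype.card ι)) → Fin P.s → ι × Bool) {Z : Matrix ι (Fin r) ℤ}
    (hZ : (Zᵀ * Z).det ≠ 0) :
    ∑ i, ⌈∑ l, (proj Z *ᵥ castVec (randVec (σ l))) i ^ 2⌉₊ ≤
      P.k0 (Fintype.card ι) * P.s ^ 2 + Fintype.card ι := by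
  refine sum_ceil _ (fun i => sum_nonneg fun l _ => sq_nonneg _) _ ?_
  have h := sum_norms hZ (fun l => randVec (σ l)) (P.s ^ 2) fun l => by
    push_cast; exact randVec_sq _
  simpa using h

/-- The second radii have small total. -/
lemma sum_r1 (w : Fin (P.k1 (Fintype.card ι)) → Fin (P.e + 1) → ι × Fin (P.u + 1))
    {Z : Matrix ι (Fin r) ℤ} (hZ : (Zᵀ * Z).det ≠ 0) :
    ∑ i, ⌈∑ l, (proj Z *ᵥ castVec (testVec (w l))) i ^ 2⌉₊ ≤
      P.k1 (Fintype.card ι) * ((P.e + 1) * P.u) ^ 2 + Fintype.card ι := by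
  refine sum_ceil _ (fun i => sum_nonneg fun l _ => sq_nonneg _) _ ?_
  have h := sum_norms hZ (fun l => testVec (w l)) (((P.e + 1) * P.u) ^ 2) fun l => by
    refine (testVec_sq _).trans (le_of_eq ?_)
    push_cast; ring
  simpa using h

/-- Every regular lattice has a code. -/
lemma exists_code_of_reg [Nonempty ι] (he : 12 ≤ P.e) {Z : Matrix ι (Fin r) ℤ} (hZ : P.Reg Z) :
    ∃ c : Code P ι, Fits c Z := by
  classical
  obtain ⟨hdet, hsize, -, -⟩ := hZ
  set m := Fintype.card ι with hm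
  obtain ⟨hfin, hcard⟩ := glue_finite Z hdet
  have hA : Nat.card (glue Z).range ≤ 2 ^ (P.A * m) := hcard.trans hsize
  let rep : (ι → UnitAddCircle) → ι → ℝ := fun g a => AddCircle.equivIco (1 : ℝ) 0 (g a)
  have hrep : ∀ g, cls (rep g) = g := fun g => funext fun a =>
    (AddCircle.equivIco (1 : ℝ) 0).symm_apply_apply (g a)
  let X : Finset (ι → ℝ) := ((Set.toFinite ((glue Z).range : Set (ι → UnitAddCircle))).toFinset.image rep).filter
    fun x => Spread P.n (P.Θ m) x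
  have hXcard : X.card ≤ 2 ^ (P.A * m) := by
    refine (card_filter_le _ _).trans (card_image_le.trans ?_)
    rw [← Nat.card_eq_card_finite_toFinset]
    exact hA
  have hu : 1 ≤ P.u := Nat.one_le_two_pow
  have huR : (0 : ℝ) < P.u := by exact_mod_cast hu
  have hs : Real.exp (-(2 * P.s * P.Θ m / m)) ≤ 1 / (P.u : ℝ) := by
    have hm0 : (0 : ℝ) < m := Nat.cast_pos.2 Fintype.card_pos
    have hs0 : (0 : ℝ) < P.s := by
      rw [Params.s]; exact_mod_cast pow_pos hu 4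
    rw [Params.Θ, show 2 * (P.s : ℝ) * ((P.e + 1 : ℝ) * m / P.s) / m = 2 * (P.e + 1 : ℝ) by
      field_simp, one_div, ← Real.exp_log huR, ← Real.exp_neg]
    refine Real.exp_le_exp.2 (neg_le_neg ?_)
    rw [Params.u, Nat.cast_pow, Nat.cast_ofNat, Real.log_pow]
    nlinarith [Real.log_two_lt_d9, Nat.cast_nonneg (α := ℝ) P.e, Real.log_pos (show (1 : ℝ) < 2 by norm_num)]
  have hR : 40 * P.n * P.R m ≤ P.k0 m := Nat.mul_div_le _ _
  have hn : (1 : ℝ) ≤ (1 / (P.u : ℝ)) ^ 2 * (2 * (P.n : ℕ) + 1) := by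
    rw [Params.n, Nat.cast_pow, div_pow, one_pow, div_mul_eq_mul_div, one_mul,
      le_div_iff₀ (pow_pos huR 2)]
    nlinarith
  have hsmall : (X.card : ℝ) * (5 ^ P.k0 m * (1 / (P.u : ℝ)) ^ (P.k0 m - P.k0 m / 2)) < 1 := by
    have hk : 4 * P.A * m < P.e * P.k0 m := Nat.lt_mul_div_succ _ (by omega)
    have hhalf : P.k0 m ≤ 2 * (P.k0 m - P.k0 m / 2) := by omega
    have h1 : (X.card : ℝ) * 5 ^ P.k0 m < (P.u : ℝ) ^ (P.k0 m - P.k0 m / 2) := by
      have h2 : X.card * 5 ^ P.k0 m < P.u ^ (P.k0 m - P.k0 m / 2) := by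
        calc X.card * 5 ^ P.k0 m ≤ 2 ^ (P.A * m) * (2 ^ 3) ^ P.k0 m :=
              Nat.mul_le_mul hXcard (Nat.pow_le_pow_left (by norm_num) _)
          _ = 2 ^ (P.A * m + 3 * P.k0 m) := by rw [← pow_mul, ← pow_add]
          _ < 2 ^ (P.e * (P.k0 m - P.k0 m / 2)) :=
              Nat.pow_lt_pow_right (by norm_num) (by nlinarith)
          _ = P.u ^ (P.k0 m - P.k0 m / 2) := by rw [Params.u, ← pow_mul]
      exact_mod_cast h2
    rw [← mul_assoc, _root_.one_div_pow, mul_one_div, div_lt_one (pow_pos huR _)]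
    exact h1
  obtain ⟨σ, hσ⟩ := exists_tests (s := P.s) X (θ := 1 / (P.u : ℝ)) (Θ := P.Θ m) (by positivity)
    ((div_le_one huR).2 (by exact_mod_cast hu)) hn (Nat.one_le_pow _ _ hu)
    (by rw [← hm]; exact hs) hR (fun x hx => (mem_filter.1 hx).2) hsmall
  obtain ⟨k, w, q, hk, hq1, hq2, hq⟩ := greedy (glue Z).rangeRestrict P.e
    (AddSubgroup.closure (Set.range fun l => (glue Z).rangeRestrict (randVec (σ l))))
  have hk1 : k ≤ P.k1 m := by
    have h1 : (2 ^ P.e) ^ k ≤ 2 ^ (P.A * m) :=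
      le_trans (le_trans (Nat.le_mul_of_pos_right _ Nat.card_pos) hk) hA
    rw [← pow_mul, Nat.pow_le_pow_iff_right (by norm_num)] at h1
    exact (Nat.le_div_iff_mul_le (by omega)).2 (by rw [mul_comm]; exact h1)
  obtain ⟨i0⟩ := ‹Nonempty ι›
  let w' : Fin (P.k1 m) → Fin (P.e + 1) → ι × Fin (P.u + 1) :=
    fun l => if h : l.val < k then w ⟨l.val, h⟩ else fun _ => (i0, 0)
  let z : Fin (P.k0 m + P.k1 m) → ι → ℤ :=
    Fin.append (fun l => randVec (σ l)) (fun l => testVec (w' l))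
  have h0 : ∀ i, ⌈∑ l, ys Z z i (Fin.castAdd (P.k1 m) l) ^ 2⌉₊ < P.T m + 1 := fun i => by
    refine Nat.lt_succ_of_le (le_trans (le_trans (single_le_sum
      (f := fun i => ⌈∑ l, ys Z z i (Fin.castAdd (P.k1 m) l) ^ 2⌉₊) (fun _ _ => Nat.zero_le _)
      (mem_univ i)) (le_of_eq_of_le ?_ (sum_r0 σ hdet))) ?_)
    · simp only [ys, z, Fin.append_left]; rfl
    · simp only [Params.T, ← hm]; omega
  have h1 : ∀ i, ⌈∑ l, ys Z z i (Fin.natAdd (P.k0 m) l) ^ 2⌉₊ < P.T m + 1 := fun i => by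
    refine Nat.lt_succ_of_le (le_trans (le_trans (single_le_sum
      (f := fun i => ⌈∑ l, ys Z z i (Fin.natAdd (P.k0 m) l) ^ 2⌉₊) (fun _ _ => Nat.zero_le _)
      (mem_univ i)) (le_of_eq_of_le ?_ (sum_r1 w' hdet))) ?_)
    · simp only [ys, z, Fin.append_right]; rfl
    · simp only [Params.T, ← hm]; omega
  refine ⟨⟨σ, w', ⟨q, Nat.lt_succ_of_le hq2⟩, (glue Z).range.map (applyTests z),
    fun i => ⟨_, h0 i⟩, fun i => ⟨_, h1 i⟩⟩,
    ⟨hq1, fun i => ?_, rfl, fun y hy => ?_, fun i => rfl, fun i => rfl⟩⟩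
  · have h := AddSubgroup.mem_map_of_mem (glue Z).range.subtype (hq i)
    simp only [map_nsmul, AddSubgroup.map_sup, AddMonoidHom.map_closure, ← Set.range_comp] at h
    refine SetLike.le_def.1 (sup_le ?_ ?_) h <;> refine AddSubgroup.closure_mono ?_ <;>
      rintro _ ⟨l, rfl⟩
    · exact ⟨Fin.castAdd _ l, by simp [Code.tests]⟩
    · refine ⟨Fin.natAdd _ ⟨l.val, lt_of_lt_of_le l.isLt hk1⟩, ?_⟩
      show glue Z (Fin.append (fun l => randVec (σ l)) (fun l => testVec (w' l))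
        (Fin.natAdd _ ⟨l.val, lt_of_lt_of_le l.isLt hk1⟩)) = glue Z (testVec (w l))
      rw [Fin.append_right]
      simp [w']
      rfl
  · set x := proj Z *ᵥ castVec y with hx
    set x' := rep (cls x) with hx'
    have hint : ∀ a, ∃ k : ℤ, x' a = x a + k := fun a => by
      have h := congrFun (hrep (cls x)) a
      simp only [cls] at h
      rw [← sub_eq_zero, ← AddCircle.coe_sub, AddCircle.coe_eq_zero_iff] at h
      obtain ⟨k, hk⟩ := h
      exact ⟨k, by rw [zsmul_eq_mul, mul_one] at hk; linarith⟩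
    choose K hK using hint
    have hspread : Spread P.n (P.Θ m) x' := fun t ht ht' => by
      refine le_of_le_of_eq (hy t ht ht') (sum_congr rfl fun a _ => ?_)
      simp only [hK, mul_add]
      rw [show 2 * (t : ℝ) * (K a : ℝ) = ((2 * t * K a : ℤ) : ℝ) by push_cast; ring, dev_add_int]
    have hmem : x' ∈ X := mem_filter.2 ⟨mem_image.2 ⟨_, (Set.Finite.mem_toFinset _).2 ⟨y, rfl⟩, by
      simp [hx', hx, glue_eq]⟩, hspread⟩
    have h := hσ x' hmem
    push Not at h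
    refine lt_of_lt_of_eq h (sum_congr rfl fun l _ => ?_)
    rw [show ∑ i, (randVec (σ l) i : ℝ) * x' i = ∑ i, (randVec (σ l) i : ℝ) * x i +
        ((∑ i, randVec (σ l) i * K i : ℤ) : ℝ) by
      push_cast; simp [hK, mul_add, sum_add_distrib], dev_add_int]

end Vale.Agent.P160R.Fam
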