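import Vale.Agent.P160R.Family.Data

/-!
# One code fits few projections
-/

namespace Vale.Agent.P160R.Fam

open Finset Matrix

variable {ι : Type} [Fintype ι] [DecidableEq ι] {κ : Type} [Fintype κ] [DecidableEq κ]

/-- A set all of whose finite subsets are small is small. -/
lemma exists_finset_of_bounded {α : Type*} {s : Set α} {B : ℕ}
    (h : ∀ F : Finset α, ↑F ⊆ s → F.card ≤ B) : ∃ F : Finset α, F.card ≤ B ∧ ∀ x ∈ s, x ∈ F := by
  have hfin : s.Finite := by
    by_contra hinf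
    obtain ⟨F, hF, hcard⟩ := (Set.not_finite.1 hinf).exists_subset_card_eq (B + 1)
    have := h F hF
    omega
  exact ⟨hfin.toFinset, h _ (by simp), fun x hx => hfin.mem_toFinset.2 hx⟩

/-- The points of a class of `j⁻¹ ℤ^κ` in a ball. -/
lemma coset_ball (j ρ : ℕ) (hj : 0 < j) (v : κ → UnitAddCircle) :
    ∃ F : Finset (κ → ℝ), F.card ≤ (2 * Fintype.card κ + 1) ^ (4 * j ^ 2 * ρ) ∧
      ∀ y : κ → ℝ, (∑ a, y a ^ 2) ≤ ρ → cls (fun a => (j : ℝ) * y a) = v → y ∈ F := by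
  obtain ⟨F, hF, hmem⟩ := exists_finset_of_bounded
    (s := {y : κ → ℝ | (∑ a, y a ^ 2) ≤ ρ ∧ cls (fun a => (j : ℝ) * y a) = v})
    (B := (2 * Fintype.card κ + 1) ^ (4 * j ^ 2 * ρ)) fun S hS => by
      refine coset_ball_card S hj ρ (fun y hy => (hS hy).1) fun y hy y' hy' a => ?_
      have h := congrFun ((hS hy).2.trans (hS hy').2.symm) a
      simp only [cls] at h
      rw [← sub_eq_zero, ← AddCircle.coe_sub, AddCircle.coe_eq_zero_iff] at h
      obtain ⟨c, hc⟩ := h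
      exact ⟨c, by rw [mul_sub, ← hc]; simp⟩
  exact ⟨F, hF, fun y h1 h2 => hmem y ⟨h1, h2⟩⟩

/-- An integral matrix. -/
def IntMat {α β : Type} (M : Matrix α β ℝ) : Prop := ∃ N : Matrix α β ℤ, M = toR N

/-- The scaled square of the projection is determined modulo one by the code. -/
lemma congr_mod_one (C C' : Matrix ι κ ℤ) (Zt : Matrix κ ι ℤ) (P P' : Matrix ι ι ℝ)
    (Y : Matrix ι κ ℝ) (q : ℕ) (hP : Pᵀ = P) (hP' : P'ᵀ = P') (hY : Y = P * (toR Zt)ᵀ)
    (hY' : Y = P' * (toR Zt)ᵀ) (h : IntMat ((q : ℝ) • P - toR C * Yᵀ))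
    (h' : IntMat ((q : ℝ) • P' - toR C' * Yᵀ)) :
    IntMat ((q : ℝ) ^ 2 • P - (q : ℝ) ^ 2 • P') := by
  obtain ⟨E, hE⟩ := h
  obtain ⟨E', hE'⟩ := h'
  have hF : toR Zt * Y = (toR Zt * Y)ᵀ := by
    rw [hY, transpose_mul, transpose_mul, transpose_transpose, hP, Matrix.mul_assoc]
  have hYt : Yᵀ = toR Zt * P := by rw [hY, transpose_mul, transpose_transpose, hP]
  have hYt' : Yᵀ = toR Zt * P' := by rw [hY', transpose_mul, transpose_transpose, hP']
  have e1 : (q : ℝ) • P = toR C * Yᵀ + toR E := by rw [← hE]; abel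
  have e1' : (q : ℝ) • P' = toR C' * Yᵀ + toR E' := by rw [← hE']; abel
  have e2 : (q : ℝ) • P = Y * (toR C)ᵀ + (toR E)ᵀ := by
    conv_lhs => rw [← hP, ← transpose_smul, e1]
    rw [transpose_add, transpose_mul, transpose_transpose]
  have e2' : (q : ℝ) • P' = Y * (toR C')ᵀ + (toR E')ᵀ := by
    conv_lhs => rw [← hP', ← transpose_smul, e1']
    rw [transpose_add, transpose_mul, transpose_transpose]
  refine ⟨C * Zt * E'ᵀ + (Matrix.of fun i l => (q : ℤ) * E i l) -
    ((C' * Zt * Eᵀ)ᵀ + Matrix.of fun i l => (q : ℤ) * E' l i), ?_⟩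
  have a1 : (q : ℝ) ^ 2 • P = toR C * (toR Zt * Y) * (toR C')ᵀ +
      toR C * toR Zt * (toR E')ᵀ + (q : ℝ) • toR E := by
    rw [pow_two, mul_smul, e1, smul_add, ← Matrix.mul_smul, hYt', ← Matrix.mul_smul, e2',
      Matrix.mul_add, Matrix.mul_add]
    simp only [Matrix.mul_assoc]
  have a2 : (q : ℝ) ^ 2 • P' = toR C * (toR Zt * Y) * (toR C')ᵀ +
      (toR C' * toR Zt * (toR E)ᵀ)ᵀ + (q : ℝ) • (toR E')ᵀ := by
    have b : (q : ℝ) ^ 2 • P' = toR C' * (toR Zt * Y) * (toR C)ᵀ +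
        toR C' * toR Zt * (toR E)ᵀ + (q : ℝ) • toR E' := by
      rw [pow_two, mul_smul, e1', smul_add, ← Matrix.mul_smul, hYt, ← Matrix.mul_smul, e2,
        Matrix.mul_add, Matrix.mul_add]
      simp only [Matrix.mul_assoc]
    have c := congrArg Matrix.transpose b
    rw [transpose_smul, hP', transpose_add, transpose_add, transpose_smul] at c
    rw [c]
    congr 2
    rw [transpose_mul, transpose_mul, transpose_transpose, ← hF]
    simp only [Matrix.mul_assoc]
  rw [a1, a2]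
  ext i l
  simp [toR, Matrix.mul_apply, Finset.sum_mul]
  ring

variable {P : Params} {r r' : ℕ}

/-- The tests relation as matrices. -/
lemma exists_coeff {c : Code P ι} {Z : Matrix ι (Fin r) ℤ} (h : Fits c Z) :
    ∃ C : Matrix ι (Fin (P.k0 (Fintype.card ι) + P.k1 (Fintype.card ι))) ℤ,
      IntMat ((c.q.val : ℝ) • proj Z - toR C * (Matrix.of (ys Z c.tests))ᵀ) := by
  choose C hC using fun i => AddSubgroup.mem_closure_range_iff_of_fintype.1 (h.mem i)
  have hint : ∀ i l, ∃ k : ℤ,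
      ((c.q.val : ℝ) • proj Z - toR (Matrix.of C) * (Matrix.of (ys Z c.tests))ᵀ) i l = k := by
    intro i l
    have e := congrFun (hC i) l
    simp only [Pi.smul_apply, Finset.sum_apply, glue_eq, cls, castVec_single,
      mulVec_single_one, Matrix.col_apply, ← AddCircle.coe_nsmul, ← AddCircle.coe_zsmul,
      zsmul_eq_mul, nsmul_eq_mul] at e
    have e' : ((∑ a, (C i a : ℝ) * (proj Z *ᵥ castVec (c.tests a)) l : ℝ) : UnitAddCircle) =
        ∑ a, (((C i a : ℝ) * (proj Z *ᵥ castVec (c.tests a)) l : ℝ) : UnitAddCircle) :=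
      map_sum (QuotientAddGroup.mk' (AddSubgroup.zmultiples (1 : ℝ))) _ _
    rw [← e'] at e
    rw [eq_comm, ← sub_eq_zero, ← AddCircle.coe_sub, AddCircle.coe_eq_zero_iff] at e
    obtain ⟨k, hk⟩ := e
    rw [zsmul_eq_mul, mul_one, proj_apply_comm Z l i] at hk
    first
      | exact ⟨k, by simpa [Matrix.mul_apply, toR, ys] using hk.symm⟩
      | exact ⟨-k, by simp [Matrix.mul_apply, toR, ys]; linarith⟩
  choose K hK using hint
  exact ⟨Matrix.of C, Matrix.of K, Matrix.ext fun i l => hK i l⟩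

/-- The radius of a row. -/
def Code.rad (c : Code P ι) (i : ι) : ℕ := c.r0 i + c.r1 i

/-- One row of test values has few possibilities. -/
lemma row_list [Nonempty ι] (he : 1 ≤ P.e) {Λ lam : ℕ}
    (hcount : ∀ (M : Matrix ι ι ℝ), Sparse M P.D → ∀ (δ : ℕ) (N : Matrix ι ι ℤ), 0 < δ →
      toR N = (δ : ℝ) • M → ∃ S : Finset (ι → ℝ), S.card ≤ 2 ^ Λ ∧
        ∀ z : ι → ℤ, (∑ i, (M *ᵥ castVec z) i ^ 2) ≤ P.Θ (Fintype.card ι) →
          (M *ᵥ castVec z) ∈ S)
    (hlam : 2 * (P.k0 (Fintype.card ι) + P.k1 (Fintype.card ι)) + 1 ≤ 2 ^ lam ∧ P.n ≤ 2 ^ lam)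
    {c : Code P ι} {Z : Matrix ι (Fin r) ℤ} (hZ : P.Reg Z) (hfit : Fits c Z) (i : ι) :
    ∃ F : Finset (Fin (P.k0 (Fintype.card ι) + P.k1 (Fintype.card ι)) → ℝ),
      F.card ≤ 2 ^ ((if P.R (Fintype.card ι) < (c.r0 i : ℕ) then P.A * Fintype.card ι else 0) +
        (lam + 2 * Λ + 16 * P.n ^ 2 * c.rad i * lam)) ∧
      ∀ (r' : ℕ) (Z' : Matrix ι (Fin r') ℤ), Fits c Z' → ys Z' c.tests i ∈ F := by
  classical
  set m := Fintype.card ι with hm
  obtain ⟨hdet, hsize, hs1, hs2⟩ := hZ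
  obtain ⟨hfin, hcard⟩ := glue_finite Z hdet
  have hu : 1 ≤ P.u := Nat.one_le_two_pow
  have hn : 1 ≤ P.n := Nat.one_le_pow _ _ hu
  have hfacts : ∀ (r' : ℕ) (Z' : Matrix ι (Fin r') ℤ), Fits c Z' →
      cls (ys Z' c.tests i) ∈ c.img ∧ ∑ a, ys Z' c.tests i a ^ 2 ≤ (c.rad i : ℕ) ∧
        ∑ l, ys Z' c.tests i (Fin.castAdd _ l) ^ 2 ≤ ((c.r0 i : ℕ) : ℝ) := by
    intro r' Z' h'
    refine ⟨?_, ?_, ?_⟩
    · rw [h'.img, cls_ys]; exact ⟨_, ⟨_, rfl⟩, rfl⟩
    · rw [Fin.sum_univ_add, Code.rad, Nat.cast_add, h'.r0, h'.r1]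
      exact add_le_add (Nat.le_ceil _) (Nat.le_ceil _)
    · rw [h'.r0]; exact Nat.le_ceil _
  by_cases hex : P.R m < (c.r0 i : ℕ)
  · have hfin' : Finite c.img := by
      rw [hfit.img]
      exact Finite.of_surjective (fun g : (glue Z).range =>
        (⟨_, AddSubgroup.mem_map_of_mem _ g.2⟩ : (glue Z).range.map (applyTests c.tests)))
        fun ⟨_, g, hg, he⟩ => ⟨⟨g, hg⟩, Subtype.ext he⟩
    choose F hF hFmem using fun g : Fin (P.k0 m + P.k1 m) → UnitAddCircle => coset_ball 1 (c.rad i) one_pos g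
    refine ⟨(Set.toFinite (c.img : Set (Fin (P.k0 m + P.k1 m) → UnitAddCircle))).toFinset.biUnion F, ?_,
      fun r' Z' h' => ?_⟩
    · refine (card_biUnion_le_card_mul _ _ ((2 ^ lam) ^ (4 * 1 ^ 2 * c.rad i)) fun g _ =>
        (hF g).trans (Nat.pow_le_pow_left (by rw [Fintype.card_fin]; exact hlam.1) _)).trans ?_
      rw [if_pos hex, ← Nat.card_eq_card_finite_toFinset, pow_add]
      refine Nat.mul_le_mul ?_ ?_
      · have h1 : Nat.card c.img ≤ Nat.card (glue Z).range := by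
          rw [hfit.img]
          exact Nat.card_le_card_of_surjective (fun g : (glue Z).range =>
            (⟨_, AddSubgroup.mem_map_of_mem _ g.2⟩ : (glue Z).range.map (applyTests c.tests)))
            fun ⟨_, g, hg, he⟩ => ⟨⟨g, hg⟩, Subtype.ext he⟩
        exact h1.trans (hcard.trans hsize)
      · rw [← pow_mul]
        refine Nat.pow_le_pow_right two_pos ?_
        have h16 : lam * (4 * 1 ^ 2 * c.rad i) ≤ 16 * P.n ^ 2 * c.rad i * lam := by
          have := Nat.one_le_pow 2 P.n hn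
          calc lam * (4 * 1 ^ 2 * c.rad i) = 4 * c.rad i * lam := by ring
            _ ≤ 16 * P.n ^ 2 * c.rad i * lam := Nat.mul_le_mul_right _
              (Nat.mul_le_mul_right _ (by omega))
        omega
    · obtain ⟨h1, h2, -⟩ := hfacts r' Z' h'
      refine mem_biUnion.2 ⟨_, (Set.Finite.mem_toFinset _).2 h1, hFmem _ _ h2 ?_⟩
      simp
  · push Not at hex
    -- the projection is rational with denominator the Gram determinant
    set δ := (Zᵀ * Z).det.natAbs with hδ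
    have hδ0 : 0 < δ := Int.natAbs_pos.2 hdet
    have hδR : ((Zᵀ * Z).det : ℝ) = δ := by
      rw [hδ, Nat.cast_natAbs, abs_of_nonneg]
      have := rgram_det_pos hdet
      rw [rgram_det] at this
      exact_mod_cast this.le
    have hN : toR (Z * (Zᵀ * Z).adjugate * Zᵀ) = (δ : ℝ) • proj Z := by
      rw [toR_mul, toR_mul, toR_transpose, proj, Matrix.inv_def, ← hδR, ← rgram_det]
      have e : toR (Zᵀ * Z).adjugate = (rgram Z).adjugate := by
        have h := RingHom.map_adjugate (Int.castRingHom ℝ) (Zᵀ * Z)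
        rw [show rgram Z = toR (Zᵀ * Z) by rw [toR_mul, toR_transpose, rgram]]
        exact h
      rw [e, Matrix.mul_smul, Matrix.smul_mul, smul_smul, Ring.inverse_eq_inv',
        mul_inv_cancel₀ (rgram_det_ne hdet), one_smul]
    have hN' : toR (Matrix.diagonal (fun _ => (δ : ℤ)) - Z * (Zᵀ * Z).adjugate * Zᵀ) =
        (δ : ℝ) • (1 - proj Z) := by
      rw [smul_sub, ← hN]
      ext a b
      rcases eq_or_ne a b with rfl | h
      · simp [toR]
      · simp [toR, h]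
    obtain ⟨S1, hS1c, hS1⟩ := hcount _ hs1 δ _ hδ0 hN
    obtain ⟨S2, hS2c, hS2⟩ := hcount _ hs2 δ _ hδ0 hN'
    let V := (S1 ×ˢ S2).image fun p => p.1 + p.2
    have hV : V.card ≤ 2 ^ (2 * Λ) := by
      refine card_image_le.trans ?_
      rw [card_product, two_mul, pow_add]
      exact Nat.mul_le_mul hS1c hS2c
    choose F hF hFmem using fun (t : ℕ) (v : ι → ℝ) =>
      coset_ball (2 * (t + 1)) (c.rad i) (by omega) (applyTests c.tests (cls v))
    refine ⟨(range P.n ×ˢ V).biUnion fun p => F p.1 p.2, ?_, fun r' Z' h' => ?_⟩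
    · refine (card_biUnion_le_card_mul _ _ ((2 ^ lam) ^ (16 * P.n ^ 2 * c.rad i)) fun p hp => ?_).trans ?_
      · refine (hF _ _).trans (le_trans (Nat.pow_le_pow_left (by
          rw [Fintype.card_fin]; exact hlam.1) _) (Nat.pow_le_pow_right (Nat.one_le_two_pow) ?_))
        have ht : p.1 + 1 ≤ P.n := mem_range.1 (mem_product.1 hp).1
        calc 4 * (2 * (p.1 + 1)) ^ 2 * c.rad i ≤ 4 * (2 * P.n) ^ 2 * c.rad i := by gcongr
          _ = 16 * P.n ^ 2 * c.rad i := by ring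
      · rw [if_neg (not_lt.2 hex), zero_add, card_product, card_range, pow_add, pow_add, ← pow_mul]
        exact Nat.mul_le_mul (Nat.mul_le_mul hlam.2 hV) (le_of_eq (by rw [mul_comm]))
    · obtain ⟨h1, h2, h3⟩ := hfacts r' Z' h'
      rw [hfit.img] at h1
      obtain ⟨g, ⟨z, rfl⟩, hg⟩ := h1
      rw [glue_eq, applyTests_cls] at hg
      set x := proj Z *ᵥ castVec z with hx
      have hy0 : ∀ l, dev (∑ a, (randVec (c.σ l) a : ℝ) * x a) ^ 2 ≤
          ys Z' c.tests i (Fin.castAdd _ l) ^ 2 := fun l => by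
        have h := congrFun hg (Fin.castAdd _ l)
        simp only [cls, Code.tests, Fin.append_left] at h
        rw [← sub_eq_zero, ← AddCircle.coe_sub, AddCircle.coe_eq_zero_iff] at h
        obtain ⟨k, hk⟩ := h
        rw [zsmul_eq_mul, mul_one] at hk
        rw [← sq_abs (ys Z' c.tests i (Fin.castAdd _ l))]
        refine pow_le_pow_left₀ (abs_nonneg _) ((dev_le _ k).trans (le_of_eq ?_)) 2
        congr 1
        simp only [Code.tests] at hk ⊢
        linarith [hk]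
      have hspec : ¬ Spread P.n (P.Θ m) x := fun hsp => by
        have h := hfit.fail z hsp
        refine absurd h (not_lt.2 (((sum_le_sum fun l _ => hy0 l).trans h3).trans ?_))
        exact_mod_cast hex
      simp only [Spread, not_forall, not_le] at hspec
      obtain ⟨t, ht1, ht2, ht⟩ := hspec
      set w : ι → ℤ := fun a => round (2 * (t : ℝ) * x a) with hw
      set v : ι → ℝ := fun a => 2 * (t : ℝ) * x a - w a with hv
      have hvsq : ∑ a, v a ^ 2 ≤ P.Θ m := by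
        refine le_of_eq_of_le (sum_congr rfl fun a _ => ?_) ht.le
        rw [dev, sq_abs]
      have hz2 : castVec ((2 * (t : ℤ)) • z - w) = (2 * (t : ℝ)) • castVec z - castVec w := by
        funext a; simp [castVec]
      have hv1 : proj Z *ᵥ castVec ((2 * (t : ℤ)) • z - w) = proj Z *ᵥ v := by
        have e : v = (2 * (t : ℝ)) • x - castVec w := by funext a; simp [hv, castVec]
        rw [e, hz2, mulVec_sub, mulVec_sub, mulVec_smul, mulVec_smul, hx, mulVec_mulVec, proj_idem hdet]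
      have hv2 : (1 - proj Z) *ᵥ castVec (-w) = (1 - proj Z) *ᵥ v := by
        have e : v = (2 * (t : ℝ)) • x + castVec (-w) := by funext a; simp [hv, castVec]; ring
        rw [e, mulVec_add, mulVec_smul, sub_mulVec (B := proj Z) (x := x), one_mulVec, hx,
          mulVec_mulVec, proj_idem hdet, sub_self, smul_zero, zero_add]
      have hsplit := proj_norm_split hdet v
      have hvV : v ∈ V := by
        refine mem_image.2 ⟨(proj Z *ᵥ v, (1 - proj Z) *ᵥ v), mem_product.2 ⟨?_, ?_⟩, ?_⟩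
        · rw [← hv1]
          refine hS1 _ ?_
          rw [hv1]
          linarith [sum_nonneg fun a (_ : a ∈ univ) => sq_nonneg (((1 - proj Z) *ᵥ v) a)]
        · rw [← hv2]
          refine hS2 _ ?_
          rw [hv2]
          linarith [sum_nonneg fun a (_ : a ∈ univ) => sq_nonneg ((proj Z *ᵥ v) a)]
        · simp [sub_mulVec]
      refine mem_biUnion.2 ⟨(t - 1, v), mem_product.2 ⟨mem_range.2 (by omega), hvV⟩,
        hFmem _ _ _ h2 ?_⟩
      have hclsv : cls v = (2 * t) • cls x := by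
        funext a
        show (((2 * (t : ℝ) * x a - (w a : ℤ) : ℝ)) : UnitAddCircle) = (2 * t) • ((x a : ℝ) : UnitAddCircle)
        rw [AddCircle.coe_sub, ← AddCircle.coe_nsmul, nsmul_eq_mul]
        have hw0 : ((w a : ℝ) : UnitAddCircle) = 0 :=
          (AddCircle.coe_eq_zero_iff _).2 ⟨w a, by simp⟩
        rw [hw0, sub_zero]
        push_cast
        rfl
      rw [hclsv, map_nsmul, applyTests_cls, hg]
      funext a
      simp only [cls, Pi.smul_apply, ← AddCircle.coe_nsmul, nsmul_eq_mul]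
      rw [show t - 1 + 1 = t by omega]

/-- One code fits few projections. -/
lemma fibre [Nonempty ι] (he : 1 ≤ P.e) {Λ lam : ℕ}
    (hcount : ∀ (M : Matrix ι ι ℝ), Sparse M P.D → ∀ (δ : ℕ) (N : Matrix ι ι ℤ), 0 < δ →
      toR N = (δ : ℝ) • M → ∃ S : Finset (ι → ℝ), S.card ≤ 2 ^ Λ ∧
        ∀ z : ι → ℤ, (∑ i, (M *ᵥ castVec z) i ^ 2) ≤ P.Θ (Fintype.card ι) →
          (M *ᵥ castVec z) ∈ S)
    (hlam : 2 * (P.k0 (Fintype.card ι) + P.k1 (Fintype.card ι)) + 1 ≤ 2 ^ lam ∧ P.n ≤ 2 ^ lam)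
    (hm : 2 * Fintype.card ι + 1 ≤ 2 ^ lam) (hAm : Fintype.card ι ≤ P.e * P.k0 (Fintype.card ι))
    (c : Code P ι) :
    ∃ F : Finset (Matrix ι ι ℝ),
      F.card ≤ 2 ^ (40 * P.n * (P.s ^ 2 + P.e) * (P.A * Fintype.card ι) +
        Fintype.card ι * (lam + 2 * Λ) + 16 * P.n ^ 2 * P.T (Fintype.card ι) * lam +
        4 * P.u ^ 4 * lam * Fintype.card ι) ∧
      ∀ (r : ℕ) (Z : Matrix ι (Fin r) ℤ), P.Reg Z → Fits c Z → proj Z ∈ F := by
  classical
  set m := Fintype.card ι with hmdef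
  by_cases hwit : ∃ (r : ℕ) (Z : Matrix ι (Fin r) ℤ), P.Reg Z ∧ Fits c Z
  swap
  · exact ⟨∅, by simp, fun r Z h1 h2 => absurd ⟨r, Z, h1, h2⟩ hwit⟩
  obtain ⟨r, Z0, hZ0, hfit⟩ := hwit
  choose L hL hLmem using row_list he hcount hlam hZ0 hfit
  -- the sums of the radii
  have hr0 : ∑ i, (c.r0 i : ℕ) ≤ P.k0 m * P.s ^ 2 + m := by
    refine le_of_eq_of_le (sum_congr rfl fun i _ => ?_) (sum_r0 c.σ hZ0.1)
    rw [hfit.r0]; simp [ys, Code.tests]
  have hr1 : ∑ i, (c.r1 i : ℕ) ≤ P.k1 m * ((P.e + 1) * P.u) ^ 2 + m := by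
    refine le_of_eq_of_le (sum_congr rfl fun i _ => ?_) (sum_r1 c.w hZ0.1)
    rw [hfit.r1]; simp [ys, Code.tests]
  have hrad : ∑ i, c.rad i ≤ P.T m := by
    simp only [Code.rad, sum_add_distrib, Params.T]
    omega
  set E := univ.filter fun i => P.R m < (c.r0 i : ℕ) with hE
  have hEc : E.card ≤ 40 * P.n * (P.s ^ 2 + P.e) := by
    have h1 : E.card * (P.R m + 1) ≤ P.k0 m * P.s ^ 2 + m := by
      refine le_trans ?_ hr0
      refine le_trans ?_ (sum_le_sum_of_subset (subset_univ E))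
      rw [← smul_eq_mul]
      exact card_nsmul_le_sum _ _ _ fun i hi => (mem_filter.1 hi).2
    have hn : 0 < 40 * P.n := Nat.mul_pos (by norm_num) (pow_pos (Nat.two_pow_pos _) _)
    have hk : 0 < P.k0 m := Nat.succ_pos _
    have h2 : P.k0 m < 40 * P.n * (P.R m + 1) := Nat.lt_mul_div_succ _ hn
    refine Nat.le_of_mul_le_mul_right ?_ hk
    calc E.card * P.k0 m ≤ E.card * (40 * P.n * (P.R m + 1)) := Nat.mul_le_mul_left _ h2.le
      _ = 40 * P.n * (E.card * (P.R m + 1)) := by ring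
      _ ≤ 40 * P.n * (P.k0 m * P.s ^ 2 + P.e * P.k0 m) :=
          Nat.mul_le_mul_left _ (h1.trans (Nat.add_le_add_left hAm _))
      _ = _ := by ring
  let Ys := Fintype.piFinset L
  have hYs : Ys.card ≤ 2 ^ (40 * P.n * (P.s ^ 2 + P.e) * (P.A * m) + m * (lam + 2 * Λ) +
      16 * P.n ^ 2 * P.T m * lam) := by
    rw [Fintype.card_piFinset]
    refine (prod_le_prod' fun i _ => hL i).trans ?_
    rw [prod_pow_eq_pow_sum]
    refine Nat.pow_le_pow_right two_pos ?_
    simp only [sum_add_distrib, sum_const, card_univ, smul_eq_mul, ← mul_sum, ← sum_mul, sum_ite,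
      sum_const_zero, add_zero]
    have h1 : E.card * (P.A * m) ≤ 40 * P.n * (P.s ^ 2 + P.e) * (P.A * m) :=
      Nat.mul_le_mul_right _ hEc
    have h2 : 16 * P.n ^ 2 * (∑ i, c.rad i) * lam ≤ 16 * P.n ^ 2 * P.T m * lam :=
      Nat.mul_le_mul_right _ (Nat.mul_le_mul_left _ hrad)
    calc _ ≤ 40 * P.n * (P.s ^ 2 + P.e) * (P.A * m) +
        (m * lam + m * (2 * Λ) + 16 * P.n ^ 2 * P.T m * lam) := by
          refine Nat.add_le_add ?_ (Nat.add_le_add_left h2 _)
          refine le_of_eq_of_le ?_ h1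
          simp [hE, hmdef]
      _ = _ := by ring
  -- one table of values fits few projections
  have hone : ∀ Y : ι → Fin (P.k0 m + P.k1 m) → ℝ, ∃ F : Finset (Matrix ι ι ℝ),
      F.card ≤ 2 ^ (4 * P.u ^ 4 * lam * m) ∧ ∀ (r : ℕ) (Z : Matrix ι (Fin r) ℤ), P.Reg Z →
        Fits c Z → ys Z c.tests = Y → proj Z ∈ F := by
    intro Y
    by_cases hw : ∃ (r : ℕ) (Z : Matrix ι (Fin r) ℤ), P.Reg Z ∧ Fits c Z ∧ ys Z c.tests = Y
    swap
    · exact ⟨∅, by simp, fun r Z h1 h2 h3 => absurd ⟨r, Z, h1, h2, h3⟩ hw⟩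
    obtain ⟨r1, Z1, hZ1, hfit1, hY1⟩ := hw
    have hq0 : 0 < c.q.val := hfit1.pos
    choose F hF hFmem using fun i => coset_ball (c.q.val ^ 2) 1 (pow_pos hq0 2)
      (cls fun l => ((c.q.val : ℝ) ^ 2) * proj Z1 i l)
    refine ⟨(Fintype.piFinset F).image Matrix.of, ?_, fun r' Z hZ h' hY => ?_⟩
    · refine card_image_le.trans ?_
      rw [Fintype.card_piFinset]
      refine (prod_le_prod' fun i _ => (hF i).trans (Nat.pow_le_pow_left hm _)).trans ?_
      rw [prod_const, card_univ, ← pow_mul, ← pow_mul]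
      refine Nat.pow_le_pow_right two_pos ?_
      have hq : c.q.val ≤ P.u := Nat.lt_succ_iff.1 c.q.isLt
      have hq2 : (c.q.val ^ 2) ^ 2 ≤ P.u ^ 4 := by rw [← pow_mul]; exact Nat.pow_le_pow_left hq 4
      calc lam * (4 * (c.q.val ^ 2) ^ 2 * 1 * Fintype.card ι) ≤ lam * (4 * P.u ^ 4 * m) := by
            rw [mul_one]; gcongr
        _ = _ := by ring
    · obtain ⟨C1, hC1⟩ := exists_coeff hfit1
      obtain ⟨C, hC⟩ := exists_coeff h'
      have hYY : ∀ {r : ℕ} (Z : Matrix ι (Fin r) ℤ),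
          Matrix.of (ys Z c.tests) = proj Z * (toR (Matrix.of c.tests))ᵀ := fun Z => by
        ext a b
        rfl
      rw [hY1] at hC1
      rw [hY] at hC
      obtain ⟨N, hN⟩ := congr_mod_one C C1 (Matrix.of c.tests) (proj Z) (proj Z1) (Matrix.of Y)
        c.q.val (proj_symm Z) (proj_symm Z1) (hY ▸ hYY Z) (hY1 ▸ hYY Z1) hC hC1
      refine mem_image.2 ⟨fun i => proj Z i, Fintype.mem_piFinset.2 fun i => ?_, rfl⟩
      refine hFmem i _ (by exact_mod_cast proj_row_sq hZ.1 i) (funext fun l => ?_)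
      have h := congrFun (congrFun hN i) l
      simp only [Matrix.sub_apply, Matrix.smul_apply, smul_eq_mul] at h
      simp only [cls]
      push_cast
      rw [← sub_eq_zero, ← AddCircle.coe_sub, h]
      exact (AddCircle.coe_eq_zero_iff _).2 ⟨N i l, by simp [toR]⟩
  choose G hG hGmem using hone
  refine ⟨Ys.biUnion G, ?_, fun r' Z hZ h' => ?_⟩
  · refine (card_biUnion_le_card_mul _ _ _ fun Y _ => hG Y).trans ?_
    rw [pow_add _ _ (4 * P.u ^ 4 * lam * m)]
    exact Nat.mul_le_mul_right _ hYs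
  · exact mem_biUnion.2 ⟨ys Z c.tests, Fintype.mem_piFinset.2 fun i => hLmem i r' Z h',
      hGmem _ r' Z hZ h' rfl⟩

end Vale.Agent.P160R.Fam
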