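import Vale.Agent.P160R.RevMink

/-!
# A nearby lattice of small determinant whose two projections have no dense sublattice
-/

namespace Vale.Agent.P160R.Fam

open Finset Matrix

variable {ι κ α : Type} [Fintype ι] [DecidableEq ι] [Fintype κ] [DecidableEq κ]

/-- An integer matrix read over the reals. -/
def toR {α β : Type} (Z : Matrix α β ℤ) : Matrix α β ℝ := Z.map Int.cast

/-- Its real Gram matrix. -/
noncomputable def rgram (Z : Matrix ι κ ℤ) : Matrix κ κ ℝ := (toR Z)ᵀ * toR Z

/-- The orthogonal projection on the real span of the columns. -/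
noncomputable def proj (Z : Matrix ι κ ℤ) : Matrix ι ι ℝ := toR Z * (rgram Z)⁻¹ * (toR Z)ᵀ

/-- The real span of the columns. -/
noncomputable def spanZ (Z : Matrix ι κ ℤ) : Submodule ℝ (ι → ℝ) :=
  Submodule.span ℝ (Set.range fun k i => (Z i k : ℝ))

/-- The distance of two subspaces. -/
noncomputable def dist (V W : Submodule ℝ (ι → ℝ)) : ℕ :=
  Module.finrank ℝ (V ⊔ W : Submodule ℝ (ι → ℝ)) - Module.finrank ℝ (V ⊓ W : Submodule ℝ (ι → ℝ))

omit [DecidableEq ι] in
lemma rgram_det (Z : Matrix ι κ ℤ) : (rgram Z).det = (((Zᵀ * Z).det : ℤ) : ℝ) := by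
  rw [Int.cast_det, rgram, toR]
  congr 1
  ext a b
  simp [Matrix.mul_apply]

omit [DecidableEq ι] in
lemma det_ne_zero_of_injective (Z : Matrix ι κ ℤ) (h : ∀ v, Z *ᵥ v = 0 → v = 0) :
    (Zᵀ * Z).det ≠ 0 := fun hd => by
  obtain ⟨v, hv0, hv⟩ := exists_mulVec_eq_zero_iff.2 hd
  refine hv0 (h v (dotProduct_self_eq_zero.1 ?_))
  have e := congrArg (fun w => v ⬝ᵥ w) hv
  simpa [← mulVec_mulVec, dotProduct_mulVec, vecMul_transpose] using e

omit [DecidableEq ι] in
lemma det_ne_zero_of_indep (Z : Matrix ι κ ℤ)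
    (h : LinearIndependent ℚ (fun k i => (Z i k : ℚ))) : (Zᵀ * Z).det ≠ 0 := by
  refine det_ne_zero_of_injective Z fun v hv => funext fun k => ?_
  refine Int.cast_injective (α := ℚ) ?_
  simp only [Pi.zero_apply, Int.cast_zero]
  refine Fintype.linearIndependent_iff.1 h (fun k => (v k : ℚ)) (funext fun i => ?_) k
  have e := congrArg (fun x : ℤ => (x : ℚ)) (congrFun hv i)
  simpa [mulVec, dotProduct, mul_comm] using e

lemma toR_mul {κ' κ'' : Type} [Fintype κ'] (A : Matrix α κ' ℤ) (B : Matrix κ' κ'' ℤ) :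
    toR (A * B) = toR A * toR B := Matrix.map_mul (f := Int.castRingHom ℝ)

lemma cast_mulVec {γ : Type} [Fintype γ] (A : Matrix α γ ℤ) (v : γ → ℤ) :
    (fun a => ((A *ᵥ v) a : ℝ)) = toR A *ᵥ fun b => (v b : ℝ) := by
  funext a
  simp [toR, mulVec, dotProduct]

lemma toR_transpose {α' β' : Type} (A : Matrix α' β' ℤ) : toR Aᵀ = (toR A)ᵀ := rfl

section Proj

variable {Z : Matrix ι κ ℤ} (hZ : (Zᵀ * Z).det ≠ 0)
include hZ

lemma rgram_det_ne : (rgram Z).det ≠ 0 := by rw [rgram_det]; exact_mod_cast hZ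

lemma toR_injective : Function.Injective (toR Z).mulVec := fun v w hvw => by
  have e : rgram Z *ᵥ v = rgram Z *ᵥ w := by simp only [rgram, ← mulVec_mulVec, hvw]
  exact mulVec_injective_iff_isUnit.2
    ((Matrix.isUnit_iff_isUnit_det _).2 (isUnit_iff_ne_zero.2 (rgram_det_ne hZ))) e

lemma rgram_posDef : (rgram Z).PosDef := by
  simpa [rgram] using PosDef.conjTranspose_mul_self _ (toR_injective hZ)

lemma rgram_det_pos : 0 < (rgram Z).det := (rgram_posDef hZ).det_pos

lemma proj_mul_self : proj Z * toR Z = toR Z := by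
  rw [proj, Matrix.mul_assoc, ← rgram, Matrix.mul_assoc,
    nonsing_inv_mul _ (isUnit_iff_ne_zero.2 (rgram_det_ne hZ)), Matrix.mul_one]

lemma proj_idem : proj Z * proj Z = proj Z := by
  conv_lhs => rhs; rw [proj]
  rw [← Matrix.mul_assoc, ← Matrix.mul_assoc, proj_mul_self hZ]
  rfl

lemma finrank_spanZ : Module.finrank ℝ (spanZ Z) = Fintype.card κ := by
  rw [show spanZ Z = LinearMap.range (toR Z).mulVecLin from (range_mulVecLin _).symm,
    LinearMap.finrank_range_of_inj (toR_injective hZ), Module.finrank_pi]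

lemma spanZ_eq_range : spanZ Z = LinearMap.range (proj Z).mulVecLin := by
  rw [show spanZ Z = LinearMap.range (toR Z).mulVecLin from (range_mulVecLin _).symm]
  refine le_antisymm ?_ ?_
  · rintro _ ⟨v, rfl⟩
    exact ⟨toR Z *ᵥ v, by simp [mulVecLin_apply, mulVec_mulVec, proj_mul_self hZ]⟩
  · rintro _ ⟨v, rfl⟩
    exact ⟨((rgram Z)⁻¹ * (toR Z)ᵀ) *ᵥ v,
      by simp only [mulVecLin_apply, mulVec_mulVec, proj, Matrix.mul_assoc]⟩

end Proj

omit [DecidableEq ι] in
lemma proj_symm (Z : Matrix ι κ ℤ) : (proj Z)ᵀ = proj Z := by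
  simp only [proj, transpose_mul, transpose_nonsing_inv, transpose_transpose, rgram, Matrix.mul_assoc]

omit [DecidableEq ι] in
lemma dist_le_of_le (V0 : Submodule ℝ (ι → ℝ)) {V V' : Submodule ℝ (ι → ℝ)} (h : V ≤ V') {u : ℕ}
    (hu : Module.finrank ℝ V' ≤ Module.finrank ℝ V + u) :
    dist V0 V ≤ dist V0 V' + u ∧ dist V0 V' ≤ dist V0 V + u := by
  have h1 := Submodule.finrank_sup_add_finrank_inf_eq V0 V
  have h2 := Submodule.finrank_sup_add_finrank_inf_eq V0 V'
  have h3 := Submodule.finrank_sup_add_finrank_inf_eq V (V0 ⊓ V')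
  have h4 : Module.finrank ℝ (V ⊔ V0 ⊓ V' : Submodule ℝ (ι → ℝ)) ≤ Module.finrank ℝ V' :=
    Submodule.finrank_mono (sup_le h inf_le_right)
  have h5 : V ⊓ (V0 ⊓ V') = V0 ⊓ V :=
    le_antisymm (le_inf (inf_le_right.trans inf_le_left) inf_le_left)
      (le_inf inf_le_right (inf_le_inf_left V0 h))
  rw [h5] at h3
  have h6 : Module.finrank ℝ (V0 ⊓ V : Submodule ℝ (ι → ℝ)) ≤
      Module.finrank ℝ (V0 ⊓ V' : Submodule ℝ (ι → ℝ)) :=
    Submodule.finrank_mono (inf_le_inf_left V0 h)
  have h7 : Module.finrank ℝ (V0 ⊔ V : Submodule ℝ (ι → ℝ)) ≤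
      Module.finrank ℝ (V0 ⊔ V' : Submodule ℝ (ι → ℝ)) :=
    Submodule.finrank_mono (sup_le_sup_left h V0)
  have h8 : Module.finrank ℝ (V0 ⊓ V : Submodule ℝ (ι → ℝ)) ≤
      Module.finrank ℝ (V0 ⊔ V : Submodule ℝ (ι → ℝ)) := Submodule.finrank_mono inf_le_sup
  simp only [dist]
  omega

/-- The determinant of the kernel lattice of `Cᵀ` inside a positive definite lattice. -/
lemma kernel_lattice {r u : ℕ} (G : Matrix (Fin r) (Fin r) ℝ) (hG : G.PosDef)
    (C : Matrix (Fin r) (Fin u) ℤ) (hC : ((toR C)ᵀ * G⁻¹ * toR C).det ≠ 0) :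
    ∃ (k : ℕ) (K : Matrix (Fin r) (Fin k) ℤ), k + u = r ∧
      0 < ((toR K)ᵀ * G * toR K).det ∧
      ((toR K)ᵀ * G * toR K).det ≤ G.det * ((toR C)ᵀ * G⁻¹ * toR C).det := by
  set f := Cᵀ.mulVecLin with hf
  obtain ⟨n, bN⟩ := Submodule.basisOfPid (Pi.basisFun ℤ (Fin u)) (LinearMap.range f)
  obtain ⟨k, bK⟩ := Submodule.basisOfPid (Pi.basisFun ℤ (Fin r)) (LinearMap.ker f)
  choose E hE using fun c : Fin n => LinearMap.mem_range.1 (bN c).2
  -- the rank of the image is full
  have hnu : n = u := by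
    refine le_antisymm ?_ ?_
    · have h := (bN.linearIndependent.map' _ (Submodule.ker_subtype _)).fintype_card_le_finrank
      simpa using h
    · let Bm : Matrix (Fin u) (Fin n) ℝ := Matrix.of fun a c => ((bN c).1 a : ℝ)
      let R : Matrix (Fin n) (Fin r) ℝ :=
        Matrix.of fun c i => (bN.repr ⟨f (Pi.single i 1), LinearMap.mem_range_self f _⟩ c : ℝ)
      have hfac : (toR C)ᵀ = Bm * R := by
        ext a i
        have h := congrArg (fun x : LinearMap.range f => x.1 a)
          (bN.sum_repr ⟨f (Pi.single i 1), LinearMap.mem_range_self f _⟩)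
        simp only [AddSubmonoidClass.coe_finsetSum, Submodule.coe_smul, Finset.sum_apply,
          Pi.smul_apply, smul_eq_mul] at h
        have hfi : f (Pi.single i 1) a = C i a := by simp [hf]
        rw [hfi] at h
        simp only [toR, Bm, R, Matrix.mul_apply, Matrix.of_apply, Matrix.map_apply,
          Matrix.transpose_apply]
        rw [← h]
        push_cast
        exact Finset.sum_congr rfl fun c _ => mul_comm _ _
      have h := rank_of_isUnit _ ((Matrix.isUnit_iff_isUnit_det _).2 (isUnit_iff_ne_zero.2 hC))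
      rw [Fintype.card_fin] at h
      rw [← h, hfac, Matrix.mul_assoc, Matrix.mul_assoc]
      exact (rank_mul_le_left _ _).trans (rank_le_width _)
  subst n
  -- a basis adapted to the kernel
  have hkerf : ∀ c, f (bK c).1 = 0 := fun c => LinearMap.mem_ker.1 (bK c).2
  have hli : LinearIndependent ℤ (Sum.elim (fun c => (bK c).1) E) := by
    rw [Fintype.linearIndependent_iff]
    intro g hg
    simp only [Fintype.sum_sum_type, Sum.elim_inl, Sum.elim_inr] at hg
    have h := congrArg f hg
    simp only [map_add, map_sum, map_smul, hkerf, smul_zero, Finset.sum_const_zero, zero_add,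
      hE, map_zero] at h
    have hr := Fintype.linearIndependent_iff.1
      (bN.linearIndependent.map' _ (Submodule.ker_subtype _)) (fun c => g (Sum.inr c)) h
    simp only [hr, zero_smul, Finset.sum_const_zero, add_zero] at hg
    have hl := Fintype.linearIndependent_iff.1
      (bK.linearIndependent.map' _ (Submodule.ker_subtype _)) (fun c => g (Sum.inl c)) hg
    exact fun s => s.casesOn hl hr
  have hsp : ⊤ ≤ Submodule.span ℤ (Set.range (Sum.elim (fun c => (bK c).1) E)) := by
    intro x _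
    set y := ∑ c, bN.repr ⟨f x, LinearMap.mem_range_self f x⟩ c • E c with hy
    have hy' : f y = f x := by
      have h := congrArg Subtype.val (bN.sum_repr ⟨f x, LinearMap.mem_range_self f x⟩)
      simp only [AddSubmonoidClass.coe_finsetSum, Submodule.coe_smul] at h
      simp only [hy, map_sum, map_smul, hE]
      exact h
    have hxy : x - y ∈ LinearMap.ker f := by simp [LinearMap.mem_ker, hy']
    rw [← sub_add_cancel x y]
    refine add_mem ?_ (Submodule.sum_mem _ fun c _ =>
      Submodule.smul_mem _ _ (Submodule.subset_span ⟨Sum.inr c, rfl⟩))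
    have h := congrArg Subtype.val (bK.sum_repr ⟨x - y, hxy⟩)
    simp only [AddSubmonoidClass.coe_finsetSum, Submodule.coe_smul] at h
    rw [← h]
    exact Submodule.sum_mem _ fun c _ =>
      Submodule.smul_mem _ _ (Submodule.subset_span ⟨Sum.inl c, rfl⟩)
  set b := Module.Basis.mk hli hsp
  have hku : k + u = r := by
    have h := Module.finrank_eq_card_basis b
    simpa using h.symm
  let e : Fin k ⊕ Fin u ≃ Fin r := finSumFinEquiv.trans (finCongr hku)
  let K : Matrix (Fin r) (Fin k) ℤ := Matrix.of fun i c => (bK c).1 i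
  let Em : Matrix (Fin r) (Fin u) ℤ := Matrix.of fun i c => E c i
  let U : Matrix (Fin r) (Fin k ⊕ Fin u) ℤ := Matrix.fromCols K Em
  have hU : IsUnit (U.submatrix e id).det := by
    have h := ((Pi.basisFun ℤ (Fin r)).reindex e.symm).isUnit_det b
    rw [Module.Basis.det_apply] at h
    suffices he : U.submatrix e id = ((Pi.basisFun ℤ (Fin r)).reindex e.symm).toMatrix b by
      rw [he]; exact h
    ext i c
    rw [Module.Basis.toMatrix_apply, Module.Basis.repr_reindex_apply, Module.Basis.mk_apply]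
    rcases c with c | c <;> simp [U, K, Em]
  have hker : Cᵀ * K = 0 := by
    ext a c
    exact congrFun (hkerf c) a
  have hCK : (toR C)ᵀ * toR K = 0 := by
    rw [show (toR C)ᵀ = toR Cᵀ from rfl, ← toR_mul, hker]
    ext a c
    simp [toR]
  have hKC : (toR K)ᵀ * toR C = 0 := by simpa using congrArg Matrix.transpose hCK
  -- the two block identities
  set A1 := (toR K)ᵀ * G * toR K
  set A2 := (toR C)ᵀ * G⁻¹ * toR C
  set β := Cᵀ * Em with hβ
  have hGu : IsUnit G.det := isUnit_iff_ne_zero.2 hG.det_pos.ne'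
  have hGt : Gᵀ = G := by rw [← conjTranspose_eq_transpose_of_trivial]; exact hG.1
  let T : Matrix (Fin r) (Fin k ⊕ Fin u) ℝ := Matrix.fromCols (toR K) (G⁻¹ * toR C)
  have hTG : Tᵀ * G = Matrix.fromRows ((toR K)ᵀ * G) (toR C)ᵀ := by
    simp only [T, transpose_fromCols, fromRows_mul, transpose_mul, transpose_nonsing_inv, hGt,
      Matrix.mul_assoc, nonsing_inv_mul _ hGu, Matrix.mul_one]
  have e1 : Tᵀ * G * T = Matrix.fromBlocks A1 0 0 A2 := by
    rw [hTG, fromRows_mul_fromCols, Matrix.mul_assoc (toR K)ᵀ G (G⁻¹ * toR C),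
      mul_nonsing_inv_cancel_left _ _ hGu, hKC, hCK, ← Matrix.mul_assoc]
  have e2 : Tᵀ * G * toR U =
      Matrix.fromBlocks A1 ((toR K)ᵀ * G * toR Em) 0 (toR β) := by
    have hs : toR U = Matrix.fromCols (toR K) (toR Em) := by
      ext i c
      rcases c with c | c <;> rfl
    rw [hTG, hs, fromRows_mul_fromCols, hCK]
    rw [hβ, toR_mul]
    rfl
  have hsq : ∀ (X Y : Matrix (Fin r) (Fin k ⊕ Fin u) ℝ),
      (Xᵀ * G * Y).det = (X.submatrix e id).det * G.det * (Y.submatrix e id).det := by
    intro X Y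
    rw [show Xᵀ * G * Y = (X.submatrix e id)ᵀ * G.submatrix e e * Y.submatrix e id by
      rw [transpose_submatrix, submatrix_mul_equiv, submatrix_mul_equiv, submatrix_id_id]]
    rw [det_mul, det_mul, det_transpose, det_submatrix_equiv_self]
  have d1 : A1.det * A2.det = (T.submatrix e id).det ^ 2 * G.det := by
    rw [← det_fromBlocks_zero₂₁ A1 0 A2, ← e1, hsq]; ring
  have d2 : A1.det * (toR β).det = (T.submatrix e id).det * G.det * ((U.submatrix e id).det : ℝ) := by
    rw [← det_fromBlocks_zero₂₁ A1 _ (toR β), ← e2, hsq, Int.cast_det]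
    rfl
  have hw : ((U.submatrix e id).det : ℝ) ^ 2 = 1 := by
    rcases Int.isUnit_iff.1 hU with h | h <;> simp [h]
  have hKinj : Function.Injective (toR K).mulVec := by
    refine toR_injective (det_ne_zero_of_injective K fun v hv => funext fun c => ?_)
    refine Fintype.linearIndependent_iff.1
      (bK.linearIndependent.map' _ (Submodule.ker_subtype _)) v ?_ c
    rw [← hv]
    ext i
    simp [K, mulVec, dotProduct, mul_comm]
  have hA1 : 0 < A1.det :=
    (by simpa [conjTranspose_eq_transpose_of_trivial] using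
      hG.conjTranspose_mul_mul_same hKinj : A1.PosDef).det_pos
  have hA2 : 0 < A2.det := by
    refine lt_of_le_of_ne ?_ (Ne.symm hC)
    exact (by simpa [conjTranspose_eq_transpose_of_trivial] using
      hG.inv.posSemidef.conjTranspose_mul_mul_same (toR C) : A2.PosSemidef).det_nonneg
  refine ⟨k, K, hku, hA1, ?_⟩
  have hb : (toR β).det = ((β.det : ℤ) : ℝ) := (Int.cast_det β).symm
  have h3 : A1.det * (toR β).det ^ 2 = G.det * A2.det := by
    refine mul_left_cancel₀ hA1.ne' ?_
    calc A1.det * (A1.det * (toR β).det ^ 2) = (A1.det * (toR β).det) ^ 2 := by ring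
      _ = (T.submatrix e id).det ^ 2 * G.det * G.det * ((U.submatrix e id).det : ℝ) ^ 2 := by
          rw [d2]; ring
      _ = A1.det * (G.det * A2.det) := by rw [hw, mul_one, ← d1]; ring
  have hβ0 : β.det ≠ 0 := fun h0 => by
    rw [hb, h0, Int.cast_zero] at h3
    have := mul_pos hG.det_pos hA2
    simp only [ne_eq, OfNat.ofNat_ne_zero, not_false_eq_true, zero_pow, mul_zero] at h3
    linarith
  have hb1 : (1 : ℝ) ≤ (toR β).det ^ 2 := by
    rw [hb]
    exact_mod_cast (one_le_sq_iff_one_le_abs _).2 (Int.one_le_abs hβ0)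
  nlinarith

end Vale.Agent.P160R.Fam
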